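import Vale.Agent.P269.Gen.Top

/-!
# The existence of a Hodge basis (statement)
-/

namespace Vale.Agent.P269

open P291Z

/-- Every smooth non-empty complete intersection has a basis of classes of pure Hodge types. -/
def St.HdgEx : Prop :=
  ∀ (N c : ℕ) (d : Fin c → ℕ) (F : Fin c → MvPolynomial (Fin (N + 1)) ℂ), SmCI F d →
    (ci F).cone.Nonempty → ∃ (B : ℕ) (φ : Module.Basis (Fin B) ℂ (H (ci F).X)) (p q : Fin B → ℕ),
      ∀ a, (ci F).IsHodge (p a) (q a) (φ a)

end Vale.Agent.P269
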