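import Vale.Agent.P269.Pub.T1

/-!
# Transfer to the public vocabulary, part 4: series and operators
-/

set_option linter.unusedSectionVars false

namespace Vale.Agent.P269.Tf

open P291Z Set Function

section

variable {B : ℕ} {Γ Γ' : Type} [AddCommGroup Γ] [AddCommGroup Γ'] {f : Γ →+ Γ'} {π : Fin B → ℕ}

variable (f) in
/-- `F'` is the extension by zero of `F`. -/
def Ext (F : Ser B Γ) (F' : List (ℕ × Fin B) → Γ' → ℤ → ℂ) : Prop :=
  ∀ l j, (∀ β, F' l (f β) j = F l β j) ∧ ∀ b ∉ range f, F' l b j = 0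

theorem Ext.mul (hf : Injective f) (l : List (ℕ × Fin B)) : ∀ {F G : Ser B Γ} {F' G'}, Ext f F F' →
    Ext f G G' → ∀ j, (∀ β, Pub.smul π l F' G' (f β) j = Ser.mul π l F G β j) ∧
      ∀ b ∉ range f, Pub.smul π l F' G' b j = 0 := by
  induction l with
  | nil =>
    intro F G F' G' hF hG j
    refine ⟨fun β => ?_, fun b hb => finsum_eq_zero_of_forall_eq_zero fun x => ?_⟩
    · have hi : Injective (Prod.map f (id : ℤ → ℤ)) := hf.prodMap injective_id
      refine Eq.trans ((finsum_mem_univ _).symm.trans (finsum_mem_inter_support_eq _ _ (range (Prod.map f id))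
        (Set.ext fun x => and_congr_left fun h => iff_of_true trivial ?_))) ((finsum_mem_range hi).trans
          (finsum_congr fun x => ?_))
      · by_contra k
        exact h (mul_eq_zero_of_left ((hF [] x.2).2 x.1 fun ⟨y, e⟩ => k ⟨(y, x.2), Prod.ext e rfl⟩) _)
      · change F' [] (f x.1) x.2 * G' [] (f β - f x.1) (j - x.2) = _
        rw [← map_sub, (hF _ _).1, (hG _ _).1]
    · by_cases k : x.1 ∈ range f
      · obtain ⟨y, e⟩ := k
        rw [(hG _ _).2 _ fun ⟨y', e'⟩ => hb ⟨y' + y, by rw [map_add, e, e', sub_add_cancel]⟩, mul_zero]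
      · rw [(hF _ _).2 _ k, zero_mul]
  | cons i l ih =>
    intro F G F' G' hF hG j
    have h1 := ih (F := Ser.d i F) (F' := fun l => F' (i :: l)) (fun l => hF _) hG j
    have h2 := ih (F := fun l' => Ser.sg π i l' • F l') (F' := fun l β j => Pub.sg π i l * F' l β j)
      (G := Ser.d i G) (G' := fun l => G' (i :: l)) (fun l j => ⟨fun β => congrArg _ ((hF l j).1 β),
        fun b hb => mul_eq_zero_of_right _ ((hF l j).2 b hb)⟩) (fun l => hG _) j
    exact ⟨fun β => congrArg₂ (· + ·) (h1.1 β) (h2.1 β), fun b hb =>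
      (congrArg₂ (· + ·) (h1.2 b hb) (h2.2 b hb)).trans (add_zero 0)⟩

open Classical in
theorem Ext.pow (hf : Injective f) {F : Ser B Γ} {F'} (h : Ext f F F') (n : ℕ) :
    Ext f (Ser.pow π F n) ((fun P l => Pub.smul π l F' P)^[n]
      fun l β j => if l = [] ∧ β = 0 ∧ j = 0 then 1 else 0) := by
  induction n with
  | zero =>
    exact fun l j => ⟨fun β => if_congr (by rw [map_eq_zero_iff f hf]) rfl rfl,
      fun b hb => if_neg fun k => hb ⟨0, (map_zero f).trans k.2.1.symm⟩⟩
  | succ n ih =>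
    rw [iterate_succ_apply']
    exact fun l => Ext.mul hf l h ih

theorem Ext.exp (hf : Injective f) {F : Ser B Γ} {F'} (h : Ext f F F') :
    Ext f (Ser.exp π F) (Pub.sexp π F') := fun l j =>
  ⟨fun β => finsum_congr fun n => congrArg (· / _) ((h.pow hf n l j).1 β), fun b hb =>
    finsum_eq_zero_of_forall_eq_zero fun n =>
      (congrArg (· / _) ((h.pow hf n l j).2 b hb)).trans (zero_div _)⟩

theorem t_apply (i : ℕ × Fin B) (F : Ser B Γ) (l β j) :
    Ser.t π i F l β j = Pub.tmul π i (fun l => F l β j) l := by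
  simp only [Ser.t, Pub.tmul, Finset.sum_apply]
  refine Finset.sum_congr rfl fun s _ => ?_
  split_ifs <;> rfl

theorem tmul_sum (i : ℕ × Fin B) (c : Fin B → ℂ) (F : Fin B → List (ℕ × Fin B) → ℂ) (l) :
    Pub.tmul π i (fun l => ∑ b, c b * F b l) l = ∑ b, c b * Pub.tmul π i (F b) l := by
  simp only [Pub.tmul, Finset.mul_sum]
  rw [Finset.sum_comm]
  refine Finset.sum_congr rfl fun b _ => ?_
  split_ifs
  · exact Finset.sum_congr rfl fun _ _ => mul_left_comm _ _ _
  · simp

theorem virL_zero (p : Fin B → ℕ) (u : Fin B → ℂ) (η R : Matrix (Fin B) (Fin B) ℂ) (n k : ℕ) (j l) :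
    Pub.virL π p u η R n k (fun _ _ => 0) j l = 0 := by
  simp [Pub.virL, Pub.tmul]

end

variable {R J K : Type} [Fintype R] [Fintype J] [Fintype K] [DecidableEq R] (T : Tgt R J K) {n B : ℕ}
  (φ : Module.Basis (Fin B) ℂ (H T.X)) (p q : Fin B → ℕ)

theorem repr_mul (v w : H T.X) (b) : φ.repr (v * w) b = ∑ x, φ.repr w x * φ.repr (v * φ x) b := by
  conv_lhs => rw [← φ.sum_repr w, Finset.mul_sum, map_sum, Finsupp.finsetSum_apply]
  simp only [mul_smul_comm, map_smul, Finsupp.smul_apply, smul_eq_mul]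

theorem pow_apply (c : H T.X) (i : ℕ) (a b) :
    (Matrix.of (fun a b => φ.repr (c * φ a) b) ^ i) a b = φ.repr (c ^ i * φ a) b := by
  induction i generalizing b with
  | zero => simp [Matrix.one_apply, Finsupp.single_apply]
  | succ i ih =>
    rw [pow_succ, Matrix.mul_apply, pow_succ', mul_assoc, repr_mul]
    simp only [ih, Matrix.of_apply]

theorem virL_eq (I : H T.X →ₗ[ℂ] ℂ) (hI : ∀ c, T.int c = I c) (k : ℕ) (F : Ser B (BM T.X)) (l β j) :
    Pub.virL (fun a => p a + q a) p (φ.repr 1) (Matrix.of fun a b => T.int (φ a * φ b))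
      (Matrix.of fun a b => φ.repr (T.c1 n * φ a) b) n k (fun j l => F l β j) j l =
      T.L n φ p q k F l β j := by
  have h1 : ∀ i b, φ.repr (T.c1 n ^ i) b = ∑ a, φ.repr 1 a * φ.repr (T.c1 n ^ i * φ a) b :=
    fun i b => by rw [← repr_mul, mul_one]
  have h2 : ∀ a b, T.int (T.c1 n ^ k * φ a * φ b) =
      ∑ x, φ.repr (T.c1 n ^ k * φ a) x * T.int (φ x * φ b) := fun a b => by
    conv_lhs => rw [← φ.sum_repr (T.c1 n ^ k * φ a), Finset.sum_mul, hI, map_sum]
    simp only [hI, smul_mul_assoc, map_smul, smul_eq_mul]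
  have h3 : (1 / 2 : ℂ) * n = n / 2 := by ring
  simp only [Pub.virL, Tgt.L, Pi.add_apply, Pi.sub_apply, Finset.sum_apply, Pi.smul_apply, smul_eq_mul,
    Ser.hb, Tgt.dv, Ser.d, t_apply, tmul_sum, pow_apply, Matrix.mul_apply, Matrix.of_apply, h3,
    sub_neg_eq_add, ← h2, show Pub.esy = esy from rfl, Nat.cast_ofNat]
  refine congrArg₂ (· + ·) (congrArg₂ (· + ·) (Finset.sum_congr rfl fun i _ => congrArg₂ (· + ·)
    (congrArg₂ (· - ·) (finsum_congr fun m => if_congr Iff.rfl ?_ rfl) ?_) ?_) ?_) ?_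
  · simp only [Finset.mul_sum, mul_assoc]
  · simp only [h1, Finset.mul_sum, Finset.sum_mul]
    rw [Finset.sum_comm, show (1 / 2 : ℂ) * (3 - n) = (3 - n) / 2 by ring]
    simp only [mul_assoc]
  · simp only [Finset.mul_sum]
    exact Finset.sum_congr rfl fun _ _ => Finset.sum_congr rfl fun _ _ => Finset.sum_congr rfl
      fun _ _ => Finset.sum_congr rfl fun _ _ => by ring
  · simp only [Finset.mul_sum, mul_assoc]
  · refine congrArg (· * _) (if_congr Iff.rfl ?_ rfl)
    rw [Finset.sum_div, Finset.sum_div, ← Finset.sum_sub_distrib]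
    exact Finset.sum_congr rfl fun _ _ => by ring

end Vale.Agent.P269.Tf
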