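import Vale.Agent.P269.Br.Wd
import Vale.Agent.P269.Bas.Supp

/-!
# Compactness, support and finiteness of the invariants of the statement
-/

set_option linter.unusedSectionVars false

namespace Vale.Agent.P269

open P291Z Set Function Topology Filter MvPolynomial Mono Br

section

variable {R J K ι ν₀ κ : Type} [Fintype R] [Fintype J] [Fintype K] [Fintype ι] [DecidableEq ι]
  [Fintype ν₀] [Fintype κ] [DecidableEq R] {T : Tgt R J K} {χ : K → R → ℤ}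

namespace Ch

/-- The moduli space is compact and the integrand is a cocycle. -/
def Cpc (ch : Ch ι J) (T : Tgt R J K) {n : ℕ} (β : BM T.X) (m : Fin n → ℕ) : Prop :=
  CompactSpace (ch.Mod (Fin n) T) ∧ ∀ e (a : Fin n → Zs T.X), (∀ i, ch.IsTan T i (e i)) →
    supp (δ (ch.igd T β m e fun i => (a i).1)) = ∅

variable [IsEmpty ν₀] [IsEmpty κ] {ch : Ch ι J}

theorem cpc {ℓ : R → ι → ℤ} {a : ℕ} {u : Fin a ⊕ ν₀ → J → ℕ} (hF : (T.fam χ).Good)
    (hl : ch.Lat (T.fam χ).toWt ℓ)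
    (hZ : OZ (T.fam χ).toWt (ch.solF _ κ (T.fam χ) ∩ ch.cyc κ (T.fam χ) u))
    [CompactSpace (ModS (T.fam χ) (ch.cyc κ (T.fam χ) u))] (β : BM T.X)
    (hc : IsClopen (selQ (T.fam χ).toWt ℓ (ch.solF _ κ (T.fam χ) ∩ ch.cyc κ (T.fam χ) u)
      (((T.fam χ).exK _ (T.xiB χ β)).P _ _))) (m : Fin a → ℕ) : ch.Cpc T β m := by
  obtain ⟨Φ, hΦ⟩ := (tr_act (T.fam χ).toWt).exists_quo fun _ =>
    trW_sol (ch := ch) (κ := κ) (χ := χ) (u := u)
  exact ⟨Φ.symm.compactSpace, fun e w b => ((crs_sel hΦ hF hl β hc).mul (Crs.prod fun i =>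
    (((crs_tan hΦ hZ i).2 _ (b i)).pow (m i)).mul (crs_ev hΦ hl.wd i (w i)))).1⟩

end Ch

theorem Tgt.cpc_chart (h : (T.fam χ).Tg) {k : ℕ} (hk : (T.fam χ).Big k) (g : ℤ) (d : R → ℤ)
    (β : BM T.X) {a n : ℕ} (hn : Fintype.card (Ch.Mk (Fin a ⊕ Fin 0) (Fin 0)) = n) (m : Fin a → ℕ) :
    ∀ᶠ D in atTop, (T.chart g n d k D).Cpc T β m := by
  subst hn
  obtain ⟨K₀, b, -, -, h1⟩ := h.nice.vd (Fin 0) hk g d (0 : Fin a ⊕ Fin 0 → ℕ)
  have h2 := (h.exOk_exK (k := k) (T.xiB χ β)).sel _ (Fin 0) g d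
    fun n => (0 : Fin a ⊕ Fin 0 → ℕ) n • 0
  filter_upwards [h1, h2.2] with D ⟨hD, U, N, c1, c2⟩ c3
  have := Cpt.compactSpace_mod (ν := Fin a ⊕ Fin 0) (κ := Fin 0) (g := g) (d := d) h.toGood hk hD rfl
    (T := univ) (by rw [← h.B, h.B_eq]; exact isCompact_singleton) h.B.ge
    (fun _ _ => ⟨1, isUnit_one, trivial⟩) fun n => (0 : Fin a ⊕ Fin 0 → ℕ) n • 0
  exact Ch.cpc h.toGood c1.lat (c2.oz c1.toStd) β c3 m

end

variable {J K : Type} [Fintype J] [Fintype K]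

/-- The invariants are well defined, with the standard support and finiteness properties. -/
def Tgt.Wd2 (T : Tgt Unit J K) : Prop :=
  ∃ (V : ℤ → BM T.X → ∀ n, (Fin n → ℕ) → (Fin n → H T.X) → ℤ → ℂ) (s : Coch T.X),
    (∀ g β n m c d, ∀ᶠ k in atTop, ∀ᶠ D in atTop,
      (T.chart g n (fun _ => d) k D).ValC T β m c (V g β n m c d) ∧
        (T.chart g n (fun _ => d) k D).Cpc T β m) ∧
    (∀ g β n m c d, V g β n m c d ≠ 0 → ev β s = d ∧ 0 ≤ d ∧ 0 < 2 * g - 2 + n + 3 * d) ∧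
    ∀ g n d, {β | ∃ m c, V g β n m c d ≠ 0}.Finite

theorem St.wd2 (hW : St.Well) (hP : St.Pres) (T : Tgt Unit J K) (χ : K → Unit → ℤ) {k N : ℕ}
    (h : (T.fam χ).Tg) (hk : (T.fam χ).Big k) (hA : (T.fam χ).Ample 1 N) : T.Wd2 := by
  have := h.compact
  refine ⟨fun g β n m c d => (T.fam χ).cor k ((T.fam χ).exK _ (T.xiB χ β)) 0 _ (T.fam χ).cone
      (fun _ => d) (g - 1) (.ofFn fun i => (m i, T.xiH χ (c i))) [] [],
    pull (T.xi χ).symm (rep ((T.fam χ).lc _ 0 1)), fun g β n m c d => ?_, fun g β n m c d e => ?_,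
    fun g n d => ?_⟩
  · filter_upwards [Tgt.valC h hk hW hP g (fun _ => d) β m c, eventually_ge_atTop k] with k' a b
    exact a.and (Tgt.cpc_chart h (hk.mono b) g _ β (by simp [Ch.Mk]) m)
  · obtain ⟨y, a1, a2, a3, a4, a5⟩ := Fam.cor_exK_supp h.nice St.supp hk e
    have := a4.1
    have b2 := a2.pos a3
    simp [hA.1, Ch.Mk] at b2
    refine ⟨?_, by simpa using (a1.eff hA a3).1, by linarith⟩
    rw [← ev_push_homeo]
    exact (congrArg (ev · _) a5.symm).trans ((AM.ev_cls_lc h.toGood a1 1).trans (by simp [a3.2]))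
  · refine ((h.finite_cls (ν := Fin n ⊕ Fin 0) (κ := Fin 0) g fun _ => d).preimage
      (T.xiB χ).injective.injOn).subset ?_
    rintro β ⟨m, c, e⟩
    have k := Fam.cor_exK_supp h.nice St.supp hk e
    rw [List.length_ofFn, sub_add_cancel] at k
    exact k.imp fun _ a => ⟨a.1, a.2.1, a.2.2.1, a.2.2.2.2⟩

end Vale.Agent.P269
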