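import Vale.Agent.P269.Pub.T3
import Vale.Agent.P269.Pub.T4
import Vale.Agent.P269.Pub.Wd2

/-!
# Transfer to the public vocabulary, part 6: invariants and basis data
-/

set_option linter.unusedSectionVars false

namespace Vale.Agent.P269.Tf

open P291Z Set Function Topology Filter Module

theorem ev2_iff {P : ℕ → ℕ → ℂ → Prop} {z₀ : ℂ}
    (h : ∀ᶠ k in atTop, ∀ᶠ D in atTop, ∀ z, P k D z ↔ z = z₀) (z : ℂ) :
    (∀ᶠ k in atTop, ∀ᶠ D in atTop, P k D z) ↔ z = z₀ :=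
  ⟨fun h' => let ⟨_, h1, h2⟩ := (h.and h').exists; let ⟨_, h3, h4⟩ := (h1.and h2).exists; (h3 z).1 h4,
    fun e => h.mono fun _ h => h.mono fun _ h => (h z).2 e⟩

theorem epsilon_eq {P : ℂ → Prop} {z₀ : ℂ} (h : ∀ z, P z ↔ z = z₀) : Classical.epsilon P = z₀ :=
  (h _).1 (Classical.epsilon_spec ⟨z₀, (h _).2 rfl⟩)

section

variable {Y : Type} [TopologicalSpace Y] {B : ℕ}

/-- The basis data without the Hodge types. -/
def DtC (Fund : Pub.Bm Y → Prop) (Can : Pub.Co Y → Prop) (φ : Fin B → Pub.Co Y)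
    (η R : Matrix (Fin B) (Fin B) ℂ) (u : Fin B → ℂ) : Prop :=
  let E := fun x (y : Fin B → ℂ) => Pub.Cohom univ x fun l => ∑ b, y b * φ b l
  (∀ x, Pub.Zc x → ∃! y, E x y) ∧ E Pub.unit u ∧
    (∃ X, Fund X ∧ ∀ a b, η a b = X (Pub.cup (φ a) (φ b))) ∧
    ∃ e, Can e ∧ ∀ a, E (fun l => -Pub.cup e (φ a) l) (R a)

theorem E_iff (a : Fin B → Zs Y) (x : Zs Y) (y : Fin B → ℂ) :
    (Pub.Cohom univ x.1.1 fun l => ∑ b, y b * (a b).1.1 l) ↔ ∑ b, y b • H.mk (a b) = H.mk x := by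
  have e : (∑ b, y b • a b).1 = ∑ b, y b • (a b).1 := AddSubmonoidClass.coe_finsetSum _ _
  rw [← val_sum y fun b => (a b).1, ← e, cohom_univ (∑ b, y b • a b).2, hcls_val, hcls_val, map_sum]
  exact (and_iff_right x.2).trans eq_comm

theorem E_basis (φ : Basis (Fin B) ℂ (H Y)) {a : Fin B → Zs Y} (h : ∀ b, H.mk (a b) = φ b) (x : Zs Y)
    (y : Fin B → ℂ) :
    (Pub.Cohom univ x.1.1 fun l => ∑ b, y b * (a b).1.1 l) ↔ y = φ.repr (H.mk x) := by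
  simp only [E_iff, h]
  exact ⟨fun e => by rw [← e, φ.repr_sum_self], fun e => by rw [e, φ.sum_repr]⟩

theorem exists_basis [CompactSpace Y] {a : Fin B → Zs Y} (h : ∀ x, Pub.Zc x → ∃! y : Fin B → ℂ,
    Pub.Cohom univ x fun l => ∑ b, y b * (a b).1.1 l) :
    ∃ φ : Basis (Fin B) ℂ (H Y), ∀ b, H.mk (a b) = φ b := by
  have k : Bijective (Fintype.linearCombination ℂ fun b => H.mk (a b)) :=
    (bijective_iff_existsUnique _).2 fun c => by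
      obtain ⟨x, rfl⟩ := H.mk_surj c
      exact (existsUnique_congr fun y => E_iff a x y).1 (h _ (zc_val.2 (Zc_of_compact x.2)))
  refine ⟨(Pi.basisFun ℂ _).map (.ofBijective _ k), fun b => ?_⟩
  simp

end

variable {J K : Type} [Fintype J] [Fintype K] {T : Tgt Unit J K} {n B : ℕ}

theorem gwo_val {g : ℤ} {β : BM T.X} {m : Fin n → ℕ} {c : Fin n → H T.X} {d : Unit → ℤ} {z₀ : ℂ}
    (h : ∀ᶠ k in atTop, ∀ᶠ D in atTop, (T.chart g n d k D).ValC T β m c z₀ ∧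
      (T.chart g n d k D).Cpc T β m) {a : Fin n → Zs T.X}
    (ha : ∀ i, H.mk (a i) = c i) : ∀ z, GWo T g β n m (fun i => (a i).1) d z ↔ z = z₀ := by
  unfold GWo
  refine ev2_iff (h.mono fun k h => h.mono fun D ⟨⟨⟨v, h1⟩, h2, h3⟩, h4, h5⟩ z => ?_)
  choose e he using h2
  refine ⟨?_, fun k => ⟨v, e, _, h1, he, rfl, h4, Zc_of_compact (h5 e a he),
    k.trans (h3 v e a h1 he ha).symm⟩⟩
  rintro ⟨v, e, _, k1, k2, rfl, -, -, k3⟩
  exact k3.trans (h3 v e a k1 k2 ha)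

theorem gw_val {g : ℕ} {β : BM T.X} {l : List (ℕ × H T.X)} {V : ℤ → ℂ}
    (h : ∀ d, ∀ᶠ k in atTop, ∀ᶠ D in atTop, (T.chart g l.length (fun _ => d) k D).ValC T β
      (fun i => (l.get i).1) (fun i => (l.get i).2) (V d)) : T.gw g β l = ∑ᶠ d, V d := by
  rw [Tgt.gw, ← finsum_comp_equiv (Equiv.funUnique Unit ℤ).symm]
  refine finsum_congr fun d => epsilon_eq (ev2_iff ((h d).mono fun k h => h.mono
    fun D ⟨⟨v, h1⟩, h2, h3⟩ z => ?_))
  have k := fun v k => h3 v (fun i => -Ch.psi i) (fun i => ⟨_, Mono.DgI.rep_cocycle (l.get i).2⟩) k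
    (fun i => Ch.isTan_psi _ _ (h2 i)) fun i => (hcls_val _).symm.trans (Mono.DgI.hcls_rep _)
  simp only [Ch.igd, neg_neg] at k
  exact ⟨fun ⟨v, k1, k2⟩ => k2.trans (k v k1), fun e => ⟨v, h1, e.trans (k v h1).symm⟩⟩

variable {GW : ℤ → Pub.Bm T.X → ∀ n, (Fin n → ℕ × Pub.Co T.X) → ℤ → ℂ → Prop}

theorem exists_N (hW : T.Wd2) (hG : ∀ g β n u c d z,
    GW g (fn β) n (fun i => (u i, (c i).1)) d z ↔ GWo T g β n u c (fun _ => d) z) :
    ∃ (N : ℤ → Pub.Bm T.X → ∀ n, (Fin n → ℕ × Pub.Co T.X) → ℤ → ℂ) (s : Pub.Co T.X),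
      (∀ g β n l d z, 0 ≤ g → Pub.IsBM β → (∀ i, Pub.Zc (l i).2) → (GW g β n l d z ↔ z = N g β n l d)) ∧
      (∀ g β n l d, N g β n l d ≠ 0 →
        0 ≤ g ∧ Pub.IsBM β ∧ β s = d ∧ 0 ≤ d ∧ 0 < 2 * g - 2 + n + 3 * d) ∧
      (∀ g n d, {β | ∃ l, N g β n l d ≠ 0}.Finite) ∧
      ∀ (g : ℕ) β n (m : Fin n → ℕ) (a : Fin n → Zs T.X) (l : List (ℕ × H T.X)) (h : n = l.length),
        (∀ i, l.get (i.cast h) = (m i, H.mk (a i))) → (∀ i, Pub.Zc (a i).1.1) →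
        ∑ᶠ d, N g (fn β) n (fun i => (m i, (a i).1.1)) d = T.gw g β l := by
  classical
  obtain ⟨V, s, h1, h2, h3⟩ := hW
  have k1 : ∀ g β n (m : Fin n → ℕ) (a : Fin n → Zs T.X) d z,
      GW g (fn β) n (fun i => (m i, (a i).1.1)) d z ↔ z = V g β n m (fun i => H.mk (a i)) d :=
    fun g β n m a d z => (hG _ _ _ _ _ _ _).trans (gwo_val (h1 _ _ _ _ _ _) (fun _ => rfl) z)
  have k2 : ∀ {β : Pub.Bm T.X} {n} {l : Fin n → ℕ × Pub.Co T.X}, Pub.IsBM β → (∀ i, Pub.Zc (l i).2) →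
      ∃ (β' : BM T.X) (m : Fin n → ℕ) (a : Fin n → Zs T.X), β = fn β' ∧ l = fun i => (m i, (a i).1.1) :=
    fun hβ hl => by
      obtain ⟨β, rfl⟩ := isBM_iff.1 hβ
      choose a ha using fun i => exists_zs (hl i)
      exact ⟨β, _, a, rfl, funext fun i => Prod.ext rfl (ha i).symm⟩
  obtain ⟨N, hN⟩ : ∃ N : ℤ → Pub.Bm T.X → ∀ n, (Fin n → ℕ × Pub.Co T.X) → ℤ → ℂ, ∀ g β n l d,
      N g β n l d = if 0 ≤ g ∧ Pub.IsBM β ∧ ∀ i, Pub.Zc (l i).2 then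
        Classical.epsilon (GW g β n l d) else 0 := ⟨_, fun _ _ _ _ _ => rfl⟩
  have k3 : ∀ g β n l d, N g β n l d ≠ 0 → 0 ≤ g ∧ ∃ (β' : BM T.X) (m : Fin n → ℕ)
      (c : Fin n → H T.X), β = fn β' ∧ V g β' n m c d ≠ 0 := fun g β n l d e => by
    rw [hN, ite_ne_right_iff] at e
    obtain ⟨β, m, a, rfl, rfl⟩ := k2 e.1.2.1 e.1.2.2
    exact ⟨e.1.1, β, m, _, rfl, (epsilon_eq (k1 g β n m a d)).symm.trans_ne e.2⟩
  refine ⟨N, s.1, fun g β n l d z hg hβ hl => ?_, fun g β n l d e => ?_, fun g n d =>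
    ((h3 g n d).image fn).subset fun β ⟨l, e⟩ => ?_, fun g β n m a l h hl hz => ?_⟩
  · rw [hN, if_pos ⟨hg, hβ, hl⟩]
    obtain ⟨β, m, a, rfl, rfl⟩ := k2 hβ hl
    exact (k1 _ _ _ _ _ _ z).trans (Eq.congr_right (epsilon_eq (k1 g β n m a d)).symm)
  · obtain ⟨hg, β, m, c, rfl, k⟩ := k3 _ _ _ _ _ e
    exact ⟨hg, isBM_fn β, (fn_val β s).trans (h2 _ _ _ _ _ _ k).1, (h2 _ _ _ _ _ _ k).2⟩
  · obtain ⟨-, β, m, c, rfl, k⟩ := k3 _ _ _ _ _ e
    exact ⟨β, ⟨m, c, k⟩, rfl⟩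
  · subst h
    obtain rfl : m = fun i => (l.get i).1 := funext fun i => (congrArg Prod.fst (hl i)).symm
    rw [gw_val fun d => (h1 g β _ _ _ d).mono fun _ h => h.mono fun _ h => h.1,
      show (fun i => (l.get i).2) = fun i => H.mk (a i) from funext fun i => congrArg Prod.snd (hl i)]
    exact finsum_congr fun d => (hN _ _ _ _ _).trans ((if_pos ⟨g.cast_nonneg, isBM_fn β, hz⟩).trans
      (epsilon_eq (k1 g β _ _ a d)))

variable [CompactSpace T.X] {Can : Pub.Co T.X → Prop}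

theorem fund_eq (hF : ∃! β, IsFund T.act T.cone β) {X} (h : Pub.IsFund T.act T.cone X) (a b : Zs T.X) :
    X (Pub.cup a.1.1 b.1.1) = T.int (H.mk a * H.mk b) := by
  obtain ⟨β, k, rfl⟩ := isFund_iff.1 h
  rw [Tgt.int, Tq.ev_rep, ← map_mul, ← hcls_val, Loc.intg_hcls _ (a * b).2,
    hF.unique (Classical.epsilon_spec hF.exists) k]
  exact fn_val β (a * b).1

theorem dtC_of (hF : ∃! β, IsFund T.act T.cone β) (hC : ∃ e : Zs T.X, Can e.1.1)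
    (φ : Basis (Fin B) ℂ (H T.X)) {a : Fin B → Zs T.X} (h : ∀ b, H.mk (a b) = φ b) :
    ∃ η R u, DtC (Y := T.X) (Pub.IsFund T.act T.cone) Can (fun b => (a b).1.1) η R u := by
  obtain ⟨e, he⟩ := hC
  obtain ⟨β, hβ⟩ := hF.exists
  refine ⟨_, fun b => φ.repr (H.mk (-(e * a b))), φ.repr (H.mk 1), fun x hx => ?_,
    (E_basis φ h 1 _).2 rfl, ⟨fn β, isFund_fn.2 hβ, fun _ _ => rfl⟩, _, he,
    fun b => (E_basis φ h (-(e * a b)) _).2 rfl⟩
  obtain ⟨x, rfl⟩ := exists_zs hx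
  exact (existsUnique_congr fun y => E_basis φ h x y).2 existsUnique_eq

theorem of_dtC (hF : ∃! β, IsFund T.act T.cone β)
    (hC : ∀ e, Can e → ∃ e' : Zs T.X, e'.1.1 = e ∧ -H.mk e' = T.c1 n) {a : Fin B → Zs T.X} {η R u}
    (h : DtC (Y := T.X) (Pub.IsFund T.act T.cone) Can (fun b => (a b).1.1) η R u) :
    ∃ φ : Basis (Fin B) ℂ (H T.X), (∀ b, H.mk (a b) = φ b) ∧ u = φ.repr 1 ∧
      η = Matrix.of (fun a b => T.int (φ a * φ b)) ∧
      R = Matrix.of fun a b => φ.repr (T.c1 n * φ a) b := by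
  obtain ⟨h1, h2, ⟨X, h3, h4⟩, e, h5, h6⟩ := h
  obtain ⟨φ, hφ⟩ := exists_basis h1
  obtain ⟨e, rfl, he⟩ := hC e h5
  refine ⟨φ, hφ, by rw [(E_basis φ hφ 1 u).1 h2, map_one], Matrix.ext fun b c => ?_,
    funext fun b => ?_⟩
  · exact (h4 b c).trans ((fund_eq hF h3 (a b) (a c)).trans (congrArg₂ (T.int <| · * ·) (hφ b) (hφ c)))
  · rw [(E_basis φ hφ (-(e * a b)) _).1 (h6 b), map_neg, map_mul, ← neg_mul, he, hφ]
    rfl

/-- **The transfer for a general target.** -/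
theorem core {Hdg : ℕ → ℕ → Pub.Co T.X → Prop} (hF : ∃! β, IsFund T.act T.cone β)
    (hC : ∀ e, Can e → ∃ e' : Zs T.X, e'.1.1 = e ∧ -H.mk e' = T.c1 n)
    (hH : ∀ p q (a : Zs T.X), Hdg p q a.1.1 → T.IsHodge p q (H.mk a))
    {N : ℤ → Pub.Bm T.X → ∀ n, (Fin n → ℕ × Pub.Co T.X) → ℤ → ℂ} {P : _ → _ → _ → _ → Prop}
    (h0 : ∀ g β n l d, N g β n l d ≠ 0 → 0 ≤ g ∧ Pub.IsBM β ∧ P g β n d)
    (hN : ∀ (g : ℕ) β n (m : Fin n → ℕ) (a : Fin n → Zs T.X) (l : List (ℕ × H T.X))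
      (h : n = l.length), (∀ i, l.get (i.cast h) = (m i, H.mk (a i))) → (∀ i, Pub.Zc (a i).1.1) →
        ∑ᶠ d, N g (fn β) n (fun i => (m i, (a i).1.1)) d = T.gw g β l)
    (hM : ∀ (φ : Basis (Fin B) ℂ (H T.X)) p q, (∀ a, T.IsHodge (p a) (q a) (φ a)) →
      ∀ k, T.L n φ p q k (T.potential φ p q) = 0)
    {φ : Fin B → Pub.Co T.X} {p q : Fin B → ℕ} {η R u}
    (h1 : ∀ a, Pub.Zc (φ a) ∧ Hdg (p a) (q a) (φ a))
    (h2 : DtC (Y := T.X) (Pub.IsFund T.act T.cone) Can φ η R u) (k β j l) :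
    Pub.virL (fun a => p a + q a) p u η R n k (fun j l => Pub.sexp (fun a => p a + q a)
      (fun l β j => ∑ᶠ d, N (j + 1) β l.length
        (fun i => ((l.get i).1, φ (l.get i).2)) d) l β j) j l = 0 := by
  choose a ha using fun b => exists_zs (h1 b).1
  obtain rfl := funext ha
  obtain ⟨φ, hφ, rfl, rfl, rfl⟩ := of_dtC hF hC h2
  have key : Ext fnA (T.potential φ p q) (Pub.sexp (fun a => p a + q a)
      fun l β j => ∑ᶠ d, N (j + 1) β l.length (fun i => ((l.get i).1, (a (l.get i).2).1.1)) d) := by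
    refine Ext.exp fn_inj fun l j => ⟨fun β => ?_, fun b hb => finsum_eq_zero_of_forall_eq_zero
      fun d => by_contra fun e => hb (isBM_iff.1 (h0 _ _ _ _ _ e).2.1)⟩
    by_cases hj : -1 ≤ j
    · rw [if_pos hj, ← hN _ β l.length (fun i => (l.get i).1)
        (fun i => a (l.get i).2) _ (List.length_map _).symm (fun i => by simp [hφ]) fun i => (h1 _).1,
        Int.toNat_of_nonneg (by omega)]
      rfl
    · rw [if_neg hj]
      exact finsum_eq_zero_of_forall_eq_zero fun d => by_contra fun e =>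
        hj (by have := (h0 _ _ _ _ _ e).1; omega)
  by_cases hβ : β ∈ range fnA
  · obtain ⟨β, rfl⟩ := hβ
    rw [funext₂ fun j l => (key l j).1 β, virL_eq T φ p q (Loc.intg _) fun c => Tq.ev_rep _ c,
      hM φ p q fun b => hφ b ▸ hH _ _ _ (h1 b).2]
    rfl
  · rw [funext₂ fun j l => (key l j).2 β hβ, virL_zero]

end Vale.Agent.P269.Tf
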