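import Vale.Agent.P269.Pub.T5
import Vale.Agent.P269.Pub.T6
import Vale.Agent.P269.Pub.HdgEx

/-!
# Transfer to the public vocabulary, part 7: complete intersections
-/

set_option linter.unusedSectionVars false
set_option linter.style.haveILetI false

namespace Vale.Agent.P269.Tf

open P291Z Set Function Topology Filter Module MvPolynomial

theorem isHodge_iff {R J K : Type} [Fintype R] [Fintype J] [Fintype K] {T : Tgt R J K} {p q : ℕ}
    {c : H T.X} : T.IsHodge p q c ↔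
      ∃ a : Zs T.X, Pub.IsHodge T.cone T.tan (Quo.mk T.act) p q a.1.1 ∧ H.mk a = c := by
  simp only [Tgt.IsHodge, zsmul_eq_mul]
  exact exists_congr fun a => ⟨fun h => ⟨⟨h.1, h.2.2⟩, h.2.1⟩, fun h => ⟨h.1.1, h.2, h.1.2⟩⟩

variable {N c : ℕ} {d : Fin c → ℕ} {F : Fin c → MvPolynomial (Fin (N + 1)) ℂ}

theorem isCan_iff {n : ℕ} {e : Pub.Co (ci F).X} :
    Pub.IsCan (ci F).act (ci F).cone (ci F).tan (fun t => t ()) n e ↔
      ∃ e', IsEul (ci F).act (kρ F n) (ci F).cone (kB F n) (kN F n) e' ∧ e'.1 = e := by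
  refine isEuler_iff.trans (exists_congr fun e' => and_congr_left' (iff_of_eq ?_))
  congr 1
  · exact funext₂ fun t ω => ContinuousAlternatingMap.ext fun v => (kρ_apply t ω v).symm
  · exact funext fun x => (congrArg _ (Set.ext fun _ => mem_kB.symm)).trans (Submodule.span_eq _)
  · exact funext fun x => (congrArg _ (Set.ext fun _ => mem_kN.symm)).trans (Submodule.span_eq _)

theorem scal_eq : Pub.scal = (ci F).act := funext₃ fun t x j => by simp [Pub.scal, Tgt.act, ci]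

theorem cone_eq : Pub.cone F = (ci F).cone :=
  Set.ext fun _ => and_congr_left' Function.ne_iff.symm

theorem smCI (hom : ∀ k, (F k).IsHomogeneous (d k))
    (li : ∀ x ∈ (ci F).cone, LinearIndependent ℂ fun k j => eval x (pderiv j (F k))) {x}
    (hx : x ∈ (ci F).cone) : SmCI F d :=
  have ne : ∀ k, F k ≠ 0 := fun k e => (li x hx).ne_zero k (by simp [e, Pi.zero_def])
  ⟨hom, fun k => Nat.one_le_iff_ne_zero.2 fun e => ne k (by
    have h1 := hom k
    rw [e, ← totalDegree_zero_iff_isHomogeneous, totalDegree_eq_zero_iff_eq_C] at h1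
    have h2 := hx.2 k
    rw [show (ci F).F k = _ from h1, eval_C] at h2
    rw [h1, h2, map_zero]), ne, li⟩

theorem can_ci (h : SmCI F d) (hn : (ci F).cone.Nonempty) :
    (∃ e : Zs (ci F).X, Pub.IsCan (ci F).act (ci F).cone (ci F).tan (fun t => t ()) (N - c) e.1.1) ∧
    ∀ e, Pub.IsCan (ci F).act (ci F).cone (ci F).tan (fun t => t ()) (N - c) e →
      ∃ e' : Zs (ci F).X, e'.1.1 = e ∧ -H.mk e' = (ci F).c1 (N - c) := by
  have hc := h.tg.card_le ⟨(0, hn.choose), mem_ciF.2 hn.choose_spec⟩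
  obtain ⟨⟨e, he⟩, k⟩ := eulOk_ci h (by simp at hc; omega)
  refine ⟨⟨⟨e, (k e he).1⟩, isCan_iff.2 ⟨e, he, rfl⟩⟩, fun e he => ?_⟩
  obtain ⟨e, h', rfl⟩ := isCan_iff.1 he
  exact ⟨⟨e, (k e h').1⟩, rfl, congrArg Neg.neg ((hcls_of_mem _).symm.trans (k e h').2)⟩

/-- Change of the presentation of the cone. -/
theorem transport {P : ((Unit → ℂ) → (Fin (N + 1) → ℂ) → Fin (N + 1) → ℂ) →
    Set (Fin (N + 1) → ℂ) → Prop} (h : P (ci F).act (ci F).cone) : P Pub.scal (Pub.cone F) := by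
  rwa [scal_eq (F := F), cone_eq]

/-- **The public statement from the main theorem.** -/
theorem conj_of (hM : St.Main) (hW : St.Well) (hP : St.Pres) (hX : St.HdgEx) (N r : ℕ)
    (d : Fin r → ℕ) (F : Fin r → MvPolynomial (Fin (N + 1)) ℂ) (hF : ∀ k, (F k).IsHomogeneous (d k))
    (hs : ∀ x ∈ Pub.cone F, LinearIndependent ℂ fun k j => eval x (pderiv j (F k)))
    (hc : ConnectedSpace (Pub.Var F)) : Pub.Conj F (N - r) := by
  revert hs hc
  refine transport (F := F) (P := fun act S => (∀ x ∈ S, LinearIndependent ℂ fun k j =>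
    eval x (pderiv j (F k))) → ConnectedSpace (Pub.Quo act S) → Pub.Virasoro (Y := Pub.Quo act S)
      (Pub.IsHodge S (ci F).tan (Quot.mk _)) (Pub.IsFund act S)
      (Pub.IsCan act S (ci F).tan (fun t => t ()) (N - r)) (Pub.IsGW F S (Quot.mk _)) (N - r))
    fun hs (hc : ConnectedSpace (ci F).X) => ?_
  obtain ⟨⟨x, hx⟩, -⟩ := Quot.exists_rep (Classical.arbitrary (ci F).X)
  have sm := smCI hF hs hx
  haveI := compact_ci sm
  obtain ⟨c1, c2⟩ := can_ci sm ⟨x, hx⟩
  obtain ⟨M, s, h1, h0, h6, h2⟩ := exists_N (T := ci F) (St.wd2 hW hP _ (fun k _ => d k) sm.tg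
    (ciF_big le_rfl) ciF_ample) fun _ _ _ _ _ _ _ => isGW_iff F
  refine ⟨M, s, h1, h0, h6, ?_, fun B φ p q η R u h => core (fund_ci sm) c2
    (fun p q a h => isHodge_iff.2 ⟨a, h, rfl⟩) h0 h2 (hM N r d F hF hs hc B) h.1 h.2⟩
  obtain ⟨B, φ, p, q, h⟩ := hX N r d F sm ⟨x, hx⟩
  choose a h3 h4 using fun b => isHodge_iff.1 (h b)
  obtain ⟨η, R, u, h5⟩ := dtC_of (fund_ci sm) c1 φ h4
  exact ⟨B, _, p, q, η, R, u, fun b => ⟨(zc_val (X := (ci F).X)).2 (Zc_of_compact (a b).2), h3 b⟩, h5⟩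

end Vale.Agent.P269.Tf
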