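import Vale.Agent.P269.Defs.Vir

/-!
# The integrand of the Gromov-Witten invariants for arbitrary Thom cocycles
-/

set_option linter.unusedSectionVars false

namespace Vale.Agent.P269

open P291Z Set Function Topology Filter

section

variable {A W P : Type} [NormedRing A] [NormedAlgebra ℂ A] [NormedAddCommGroup W] [NormedSpace ℂ W]
  [AddCommGroup P] [Module ℂ P] [TopologicalSpace P]

/-- `e` is the pull-back of some Thom cocycle along the zero section. -/
def IsEul (act : A → W → W) (ρ : A → P → P) (S : Set W) (B N : W → Submodule ℂ P)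
    (e : Coch (Quo act S)) : Prop :=
  ∃ t, IsThomOf act ρ S B N t ∧ e = pull (sec act ρ S B N 0) t

theorem isEul_eulerC {act : A → W → W} {ρ : A → P → P} {S : Set W} {B N : W → Submodule ℂ P}
    (h : ∃ e, IsEul act ρ S B N e) : IsEul act ρ S B N (eulerC act ρ S B N) :=
  let ⟨_, t, ht, _⟩ := h
  ⟨_, Classical.epsilon_spec ⟨t, ht⟩, rfl⟩

end

variable {R J K : Type} [Fintype R] [Fintype J] [Fintype K]

namespace Ch

variable {ι : Type} [Fintype ι] [DecidableEq ι] (ch : Ch ι J) {ν : Type} [Fintype ν] (T : Tgt R J K)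

/-- `e` is an Euler cocycle of the tangent line at the marked point `n`. -/
def IsTan (n : ν) (e : Coch (ch.Mod ν T)) : Prop :=
  IsEul act (fun s (v : V ch.M) i => s.2.2 n i • s.1 i (v i)) (ch.sol ν T)
    (fun x => Submodule.span ℂ {v | ∃ γ : ℂ → V ch.M, AnalyticAt ℂ γ 0 ∧
      (∀ᶠ t in 𝓝 0, γ t ∈ crv x) ∧ γ 0 = x.p n ∧ v = deriv γ 0})
    (fun x => Submodule.span ℂ (range fun i => Pi.single i (x.p n i))) e

theorem isTan_psi {n : ν} (h : ∃ e, ch.IsTan T n e) : ch.IsTan T n (-psi n) := by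
  rw [psi, neg_neg]
  exact isEul_eulerC h

/-- The integrand. -/
noncomputable def igd {n : ℕ} (β : BM T.X) (m : Fin n → ℕ) (e : Fin n → Coch (ch.Mod (Fin n) T))
    (a : Fin n → Coch T.X) : Coch (ch.Mod (Fin n) T) :=
  ind {y | IsConnected (crv (Quo.out y).1) ∧ HasClass (Quo.out y) β} *
    (List.ofFn fun i => (-e i) ^ m i * pull (evl i) (a i)).prod

/-- In the chart all data exist and the integral is `z` for all choices. -/
def ValC {n : ℕ} (β : BM T.X) (m : Fin n → ℕ) (c : Fin n → H T.X) (z : ℂ) : Prop :=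
  (∃ v, ch.IsVir (Fin n) T (fun q o => (T.F q).totalDegree * ∑ j, ch.b j o) v) ∧
  (∀ i : Fin n, ∃ e, ch.IsTan T i e) ∧
  ∀ v e (a : Fin n → Zs T.X), ch.IsVir (Fin n) T (fun q o => (T.F q).totalDegree * ∑ j, ch.b j o) v →
    (∀ i, ch.IsTan T i (e i)) → (∀ i, H.mk (a i) = c i) →
      ev v (ch.igd T β m e fun i => (a i).1) = z

end Ch

/-- The invariants of the target are well defined. -/
def Tgt.Wd [DecidableEq R] (T : Tgt R J K) : Prop :=
  ∀ (g : ℕ) (β : BM T.X) (n : ℕ) (m : Fin n → ℕ) (c : Fin n → H T.X) (d : R → ℤ),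
    ∃ z, ∀ᶠ k in atTop, ∀ᶠ D in atTop, (T.chart g n d k D).ValC T β m c z

end Vale.Agent.P269
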