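import Vale.Agent.P269.Pub.Vir
import Vale.Agent.P269.Pub.GwD
import Vale.Agent.P291Z.T7

/-!
# Transfer to the public vocabulary, part 1: cochains and Borel-Moore classes
-/

set_option linter.unusedSectionVars false

namespace Vale.Agent.P269.Tf

open P291Z Set Function Topology Filter

variable {X Y : Type}

theorem bd (a : Coch X) : Pub.Bd a.1 := a.2

theorem exists_val {a : Pub.Co X} (h : Pub.Bd a) : ∃ a' : Coch X, a'.1 = a := ⟨⟨a, h⟩, rfl⟩

theorem val_inj {a b : Coch X} (h : a.1 = b.1) : a = b := Subtype.ext h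

theorem val_mul (a b : Coch X) : (a * b).1 = Pub.cup a.1 b.1 := rfl

theorem val_δ (a : Coch X) : (δ a).1 = Pub.cob a.1 := rfl

theorem val_pull (f : X → Y) (a : Coch Y) : (pull f a).1 = Pub.pull f a.1 := rfl

theorem val_one : (1 : Coch X).1 = Pub.unit := rfl

theorem val_neg (a : Coch X) : (-a).1 = fun l => -a.1 l := rfl

theorem val_prod (l : List (Coch X)) : l.prod.1 = Pub.prd (l.map (·.1)) := by
  induction l with
  | nil => rfl
  | cons a l ih => exact congrArg (Pub.cup a.1) ih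

theorem val_ofFn {n : ℕ} (a : Fin n → Coch X) :
    (List.ofFn a).prod.1 = Pub.prd (List.ofFn fun i => (a i).1) := by
  rw [val_prod, List.map_ofFn]
  rfl

theorem val_pow (a : Coch X) (n : ℕ) : (a ^ n).1 = Pub.prd (List.replicate n a.1) := by
  rw [← List.prod_replicate, val_prod, List.map_replicate]

theorem val_sum {ι : Type} [Fintype ι] (y : ι → ℂ) (a : ι → Coch X) :
    (∑ b, y b • a b).1 = fun l => ∑ b, y b * (a b).1 l := funext fun l =>
  map_sum (AddMonoidHom.mk' (fun b : Coch X => b.1 l) fun _ _ => rfl) _ _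

theorem val_ind (q : X → Prop) : (ind {y | q y}).1 = Pub.ind q := rfl

theorem val_tau (r : ℕ) : (tau r).1 = Pub.tau r := by
  rw [tau, val_ofFn]
  refine congrArg (fun a => Pub.prd (List.ofFn fun i : Fin r =>
    Pub.pull (fun z : Fin r → ℂ => z i) (Pub.cob a))) (funext fun l => ?_)
  match l with
  | [] => rfl
  | [_] => rfl
  | [_, _] => simp [wind]
  | _ :: _ :: _ :: _ => simp [wind]

theorem isDeg_val {k : ℤ} {a : Coch X} : Pub.IsDeg k a.1 ↔ IsDeg k a := Iff.rfl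

variable [TopologicalSpace X] [TopologicalSpace Y]

theorem supp_val (a : Coch X) : Pub.supp a.1 = supp a := rfl

theorem cohom_val {U : Set X} {a b : Coch X} : Pub.Cohom U a.1 b.1 ↔ Cohom U a b :=
  ⟨fun ⟨c, h0, h⟩ => ⟨⟨c, h0⟩, h⟩, fun ⟨c, h⟩ => ⟨c.1, c.2, h⟩⟩

theorem zc_val {a : Coch X} : Pub.Zc a.1 ↔ a ∈ Zc X := ⟨fun h => h.2, fun h => ⟨a.2, h⟩⟩

theorem zc_iff {a : Pub.Co X} : Pub.Zc a ↔ ∃ a' ∈ Zc X, a'.1 = a :=
  ⟨fun h => ⟨⟨a, h.1⟩, h.2, rfl⟩, fun ⟨_, h, e⟩ => e ▸ zc_val.2 h⟩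

theorem exists_zs {a : Pub.Co X} (h : Pub.Zc a) : ∃ a' : Zs X, a'.1.1 = a := ⟨⟨⟨a, h.1⟩, h.2.2⟩, rfl⟩

theorem cohom_univ {a b : Coch X} (hb : supp (δ b) = ∅) :
    Pub.Cohom univ a.1 b.1 ↔ supp (δ a) = ∅ ∧ hcls a = hcls b :=
  cohom_val.trans ⟨fun ⟨_, _, h⟩ => ⟨cocycle_of_cohom hb h, hcls_eq_of_cohom hb h⟩,
    fun h => ((hcls_eq_iff h.1 hb).1 h.2).imp fun _ k => ⟨subset_univ _, k⟩⟩

open Classical in
/-- A Borel-Moore class as a functional. -/
noncomputable def fn (β : BM X) : Pub.Bm X := fun a => if h : Pub.Bd a then ev β ⟨a, h⟩ else 0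

theorem fn_val (β : BM X) (a : Coch X) : fn β a.1 = ev β a := dif_pos a.2

theorem fn_of_not (β : BM X) {a : Pub.Co X} (h : ¬Pub.Bd a) : fn β a = 0 := dif_neg h

theorem fn_inj : Injective (fn : BM X → Pub.Bm X) := fun β β' h =>
  BM.ext_ev fun a _ => by rw [← fn_val, ← fn_val, h]

/-- The same as an additive map. -/
noncomputable def fnA : BM X →+ Pub.Bm X :=
  AddMonoidHom.mk' fn fun β β' => funext fun a => by
    by_cases h : Pub.Bd a
    · obtain ⟨a, rfl⟩ := exists_val h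
      rw [Pi.add_apply, fn_val, fn_val, fn_val, ev_eq, ev_eq, ev_eq, LinearMap.add_apply]
    · rw [Pi.add_apply, fn_of_not _ h, fn_of_not _ h, fn_of_not _ h, add_zero]

theorem isBM_fn (β : BM X) : Pub.IsBM (fn β) := by
  refine ⟨fun a h => ?_, fun s a b ha hb => ?_, fun a c h1 h2 h3 => ?_⟩
  · by_cases k : Pub.Bd a
    · obtain ⟨a, rfl⟩ := exists_val k
      rw [fn_val, ev_eq, cls_of_notMem fun e => h (zc_val.2 e), map_zero]
    · exact fn_of_not _ k
  · obtain ⟨a, ka, rfl⟩ := zc_iff.1 ha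
    obtain ⟨b, kb, rfl⟩ := zc_iff.1 hb
    refine (fn_val β (s • a + b)).trans ?_
    rw [fn_val, fn_val, ev_eq, ev_eq, ev_eq, cls_add ((Zc X).smul_mem s ka) kb, cls_smul s ka,
      map_add, map_smul, smul_eq_mul]
  · by_cases k : Pub.Bd a
    · obtain ⟨a, rfl⟩ := exists_val k
      rw [fn_val, ev_eq, cls_of_mem_Bc ⟨⟨c, h1⟩, h2, h3⟩, map_zero]
    · exact fn_of_not _ k

theorem isBM_iff {b : Pub.Bm X} : Pub.IsBM b ↔ ∃ β, fn β = b := by
  refine ⟨fun ⟨h1, h2, h3⟩ => ?_, fun ⟨β, e⟩ => e ▸ isBM_fn β⟩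
  have h0 : b (0 : Coch X).1 = 0 :=
    h3 _ (0 : Coch X).1 (bd _) (Zc X).zero_mem.1 (show supp (0 - δ 0 : Coch X) = ∅ by
      rw [map_zero, sub_zero, supp_zero])
  have h4 : ∀ s (x y : Zc X), b (s • x + y).1.1 = s * b x.1.1 + b y.1.1 :=
    fun s x y => h2 s _ _ (zc_val.2 x.2) (zc_val.2 y.2)
  let f : Zc X →ₗ[ℂ] ℂ :=
    { toFun := fun x => b x.1.1
      map_add' := fun x y => by simpa using h4 1 x y
      map_smul' := fun s x => by
        have := h4 s x 0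
        rwa [add_zero, show b (0 : Zc X).1.1 = 0 from h0, add_zero] at this }
  refine ⟨Submodule.liftQ _ f fun x ⟨c, k1, k2⟩ => h3 _ c.1 c.2 k1 k2, funext fun a => ?_⟩
  by_cases k : Pub.Zc a
  · obtain ⟨a, ha, rfl⟩ := zc_iff.1 k
    rw [fn_val, ev_eq, cls_of_mem ha]
    rfl
  · rw [(isBM_fn _).1 a k, h1 a k]

end Vale.Agent.P269.Tf
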