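import Vale.Agent.P269.Pub.T1

/-!
# Transfer to the public vocabulary, part 2: orbifolds
-/

set_option linter.unusedSectionVars false

namespace Vale.Agent.P269.Tf

open P291Z Set Function Topology Filter

variable {A W P E : Type} [NormedRing A] [NormedAlgebra ℂ A] [NormedAddCommGroup W] [NormedSpace ℂ W]
  [NormedAddCommGroup E] [NormedSpace ℂ E] [AddCommGroup P] [Module ℂ P] [TopologicalSpace P]
  {act : A → W → W} {ρ : A → P → P} {S : Set W} {B N : W → Submodule ℂ P}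

theorem isFund_fn {β : BM (Quo act S)} : Pub.IsFund act S (fn β) ↔ IsFund act S β := by
  refine (and_iff_right (isBM_fn β)).trans (exists_congr fun d => and_congr ⟨fun h j a hj ha => ?_,
    fun h j a hj ha => ?_⟩ (forall_congr' fun r => forall₂_congr fun U φ => ⟨fun h k => ?_,
      fun h h0 h1 h2 h3 => ?_⟩))
  · exact (fn_val β a).symm.trans (h j a.1 hj ha)
  · by_cases k : Pub.Bd a
    · obtain ⟨a, rfl⟩ := exists_val (X := Quo act S) k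
      exact (fn_val β a).trans (h j a hj ha)
    · exact fn_of_not _ k
  · obtain ⟨e, h⟩ := h k.zero_mem k.isOpen k.holo k.emb
    refine ⟨e, fun a ha h1 h2 => (fn_val β a).symm.trans (h a.1 (zc_val.2 ha) (fun _ hy => h1 hy) ?_)⟩
    rw [← val_tau]
    exact cohom_val.2 h2
  · obtain ⟨e, h⟩ := h ⟨h1, h0, h2, h3⟩
    refine ⟨e, fun a ha k1 k2 => ?_⟩
    obtain ⟨a, ka, rfl⟩ := (zc_iff (X := Quo act S)).1 ha
    rw [← val_tau] at k2
    exact (fn_val β a).trans (h a ka (fun y hy => k1 y hy) (cohom_val.1 k2))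

theorem isFund_iff {b : Pub.Bm (Quo act S)} :
    Pub.IsFund act S b ↔ ∃ β : BM (Quo act S), IsFund act S β ∧ fn β = b :=
  ⟨fun h => let ⟨β, e⟩ := (isBM_iff (X := Quo act S)).1 h.1; ⟨β, isFund_fn.1 (e ▸ h), e⟩,
    fun ⟨_, h, e⟩ => e ▸ isFund_fn.2 h⟩

theorem at_iff {x : W} {v : P} {z : Tot act ρ S B N} :
    Pub.At act ρ S B N x v z ↔ ∃ h, z = Quot.mk _ ⟨(x, v), h⟩ :=
  ⟨fun ⟨⟨_, h⟩, e, k⟩ => by cases e; exact ⟨h, k⟩, fun ⟨h, k⟩ => ⟨⟨_, h⟩, rfl, k⟩⟩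

theorem isThom_val {t : Coch (Tot act ρ S B N)} :
    Pub.IsThom (X := Tot act ρ S B N) B N (Pub.At act ρ S B N) t.1 ↔ IsThomOf act ρ S B N t := by
  have e0 : ∀ r, {c : Fin r → ℂ | ∀ i, c i = 0} = {0} := fun r => Set.ext fun _ => funext_iff.symm
  refine (and_iff_right (bd t)).trans (and_congr Iff.rfl (and_congr (forall₂_congr fun z _ =>
    ⟨fun ⟨x, h⟩ => let ⟨k, e⟩ := at_iff.1 h; ⟨_, rfl, e⟩, fun ⟨⟨⟨x, _⟩, h⟩, e, k⟩ => by
      cases e; exact ⟨x, at_iff.2 ⟨h, k⟩⟩⟩) (forall₂_congr fun r φ => ⟨fun h ⟨x, _, ℓ, h1, h2, h3⟩ => ?_,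
        fun h x v h1 h2 h3 => ?_⟩)))
  · have e : ∀ c, ∑ i, c i • ℓ (Pi.single i 1) = ℓ c := fun c => by
      simp only [← map_smul, ← map_sum]
      exact congrArg ℓ (pi_eq_sum_univ' c).symm
    have := h x (fun i => ℓ (Pi.single i 1)) (fun c k => congrFun (h1 c (e c ▸ k)))
      (by
        rw [← h2, ← Fintype.range_linearCombination]
        exact congrArg (fun f : (Fin r → ℂ) →ₗ[ℂ] P => LinearMap.range f ⊔ N x) (LinearMap.ext e))
      fun c => e c ▸ at_iff.2 (h3 c)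
    rw [e0, ← val_tau] at this
    exact ⟨cohom_val.1 this.1, this.2⟩
  · have := h ⟨x, (at_iff.1 (h3 0)).1.1, Fintype.linearCombination ℂ v,
      fun c k => funext (h1 c k), by rwa [Fintype.range_linearCombination], fun c => at_iff.1 (h3 c)⟩
    rw [e0, ← val_tau]
    exact ⟨cohom_val.2 this.1, this.2⟩

theorem isLoc_iff {σ : W → P} {e : Pub.Co (Quo act S)} : Pub.IsLoc act ρ S B N σ e ↔
    ∃ t, IsThomOf act ρ S B N t ∧ (pull (sec act ρ S B N σ) t).1 = e := by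
  refine ⟨fun ⟨s, t, h1, h2, h3⟩ => ?_, fun ⟨t, h1, h2⟩ =>
    ⟨sec act ρ S B N σ, t.1, isThom_val.2 h1, h2.symm, fun z => at_iff.2 ⟨_, rfl⟩⟩⟩
  obtain rfl : s = sec act ρ S B N σ := funext fun z => (at_iff.1 (h3 z)).2
  exact ⟨⟨t, h1.1⟩, isThom_val.1 h1, h2.symm⟩

theorem isEuler_iff {B' N' : W → Set P} {e : Pub.Co (Quo act S)} : Pub.IsEuler act ρ S B' N' e ↔
    ∃ e', IsEul act ρ S (fun x => Submodule.span ℂ (B' x)) (fun x => Submodule.span ℂ (N' x)) e' ∧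
      e'.1 = e :=
  isLoc_iff.trans ⟨fun ⟨t, h, k⟩ => ⟨_, ⟨t, h, rfl⟩, k⟩, fun ⟨_, ⟨t, h, rfl⟩, k⟩ => ⟨t, h, k⟩⟩

variable (act ρ S) in
/-- The virtual class for general data. -/
def VirG (sol : Set W) (P₀ : Submodule ℂ P) (van obs : W → Set P) (σ : W → P)
    (v : BM (Quo act sol)) : Prop :=
  ∃ (O : Set W) (hS : sol ⊆ O) (N : W → Submodule ℂ P) (r : ℕ)
    (β : BM (Quo act O)) (t : Coch (Tot act ρ O (fun _ => P₀) N)),
    (∃ U, IsOpen U ∧ O = S ∩ U) ∧ (∀ s, IsUnit s → ∀ x ∈ O, act s x ∈ O) ∧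
    LocallyCompactSpace O ∧ T2Space (Quo act O) ∧ T2Space (Tot act ρ O (fun _ => P₀) N) ∧
    (∀ x ∈ O, van x ⊆ N x ∧ N x ≤ P₀ ∧ Module.finrank ℂ (N x) = r ∧
      (σ x ∈ N x → x ∈ sol) ∧ ∀ s, IsUnit s → ∀ κ ∈ N x, ρ s κ ∈ N (act s x)) ∧
    IsClosed {z : O × P | z.2 ∈ N z.1} ∧
    (∀ x ∈ sol, (∀ κ ∈ obs x, κ ∈ N x → κ ∈ van x) ∧ ∀ κ ∈ P₀, ∃ κ' ∈ obs x, κ - κ' ∈ N x) ∧
    IsFund act O β ∧ IsThomOf act ρ O (fun _ => P₀) N t ∧
    Gys (Quo.incl act hS) (pull (sec act ρ O (fun _ => P₀) N σ) t) β v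

theorem gys_iff {X Y : Type} [TopologicalSpace X] [TopologicalSpace Y] {i : X → Y} {t : Coch Y}
    {β : BM Y} {v : BM X} : (∀ a, Pub.Bd a → IsCompact (Pub.supp a) →
      (∀ z, ¬Pub.supp (Pub.cob a) (i z)) → fn v (Pub.pull i a) = fn β (Pub.cup a t.1)) ↔
      Gys i t β v := by
  refine ⟨fun h a h1 h2 => ?_, fun h a h0 h1 h2 => ?_⟩
  · rw [← fn_val, ← fn_val]
    exact h a.1 a.2 h1 fun z k => disjoint_left.1 h2 k ⟨z, rfl⟩
  · obtain ⟨a, rfl⟩ := exists_val h0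
    exact (fn_val v (pull i a)).trans ((h a h1 (disjoint_left.2 fun _ k ⟨z, e⟩ =>
      h2 z (e ▸ k))).trans (fn_val β (a * t)).symm)

theorem isVir_iff {sol : Set W} {P₀ : Submodule ℂ P} {van obs : W → Set P} {σ : W → P}
    {b : Pub.Bm (Quo act sol)} : Pub.IsVir act ρ S sol P₀ van obs σ b ↔
      ∃ v, VirG act ρ S sol P₀ van obs σ v ∧ fn v = b := by
  unfold Pub.IsVir
  rw [Submodule.span_eq]
  constructor
  · rintro ⟨O, N, r, β, e, i, h0, h1, h2, h3, h4, h5, h6, h7, h8, h9, h10, h11, h12⟩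
    have hO : sol ⊆ O := fun x hx => let ⟨y, k, _⟩ := h0 ⟨x, hx⟩; show (⟨x, hx⟩ : sol).1 ∈ O from k ▸ y.2
    obtain rfl : i = Quo.incl act hO := funext (Quot.ind fun x => by
      obtain ⟨y, k1, k2⟩ := h0 x
      exact k2.trans (congrArg _ (Subtype.ext k1)))
    obtain ⟨β, k9, rfl⟩ := isFund_iff.1 h9
    obtain ⟨t, k10, rfl⟩ := isLoc_iff.1 h10
    obtain ⟨v, rfl⟩ := (isBM_iff (X := Quo act sol)).1 h11
    exact ⟨v, ⟨O, hO, N, r, β, t, h1, h2, h3, h4, h5, h6, h7, h8, k9, k10, gys_iff.1 h12⟩, rfl⟩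
  · rintro ⟨v, ⟨O, hO, N, r, β, t, h1, h2, h3, h4, h5, h6, h7, h8, h9, h10, h11⟩, rfl⟩
    exact ⟨O, N, r, fn β, _, Quo.incl act hO, fun x => ⟨⟨x.1, hO x.2⟩, rfl, rfl⟩, h1, h2, h3, h4, h5,
      h6, h7, h8, isFund_fn.2 h9, isLoc_iff.2 ⟨t, h10, rfl⟩, isBM_fn v, gys_iff.2 h11⟩

section

variable {A' Y : Type} [NormedRing A'] [NormedAlgebra ℂ A'] [TopologicalSpace Y] {n : ℕ}
  {sol : Set W} {P₀ : Submodule ℂ P} {van obs : W → Set P} {σ : W → P}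
  {act' : A' → E → E} {C : W → Set E} {V : W → E → Y → Prop} {p : W → Fin n → E}
  {ρ' : Fin n → A → E → E} {dir : E → Set E} {mp : ∀ x : sol, C x.1 → Y}

theorem class_iff (hV : ∀ (x : sol) (c : C x.1) y, V x.1 c.1 y ↔ y = mp x c) (x : sol) {β : BM Y} :
    (∃ γ f, Pub.IsFund act' (C x.1) γ ∧ (∀ c, V x.1 (Pub.pick act' _ c) (f c)) ∧
      ∀ a, Pub.Zc a → fn β a = γ (Pub.pull f a)) ↔
    ∃ γ, IsFund act' (C x.1) γ ∧ Push (fun c => mp x (Quo.out c)) γ β := by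
  refine ⟨fun ⟨γ, f, h1, h2, h3⟩ => ?_, fun ⟨γ, h1, h2⟩ => ⟨fn γ, fun c => mp x (Quo.out c),
    isFund_fn.2 h1, fun c => (hV x (Quo.out c) _).2 rfl, fun a ha => ?_⟩⟩
  · obtain ⟨γ, k1, rfl⟩ := isFund_iff.1 h1
    obtain rfl : f = fun c => mp x (Quo.out c) := funext fun c => (hV x (Quo.out c) _).1 (h2 c)
    exact ⟨γ, k1, fun a ha => (fn_val β a).symm.trans ((h3 _ (zc_val.2 ha)).trans (fn_val γ (pull _ a)))⟩
  · obtain ⟨a, ka, rfl⟩ := zc_iff.1 ha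
    exact (fn_val β a).trans ((h2 a ka).trans (fn_val γ (pull _ a)).symm)

theorem intg_iff (hV : ∀ (x : sol) (c : C x.1) y, V x.1 c.1 y ↔ y = mp x c)
    (hp : ∀ (x : sol) i, p x.1 i ∈ C x.1) {β : BM Y} {m : Fin n → ℕ} {a : Fin n → Coch Y} {z : ℂ} :
    Pub.Intg act ρ S sol P₀ van obs σ act' C V p ρ' dir (fn β) (fun i => (m i, (a i).1)) z ↔
    ∃ (v : BM (Quo act sol)) (e : Fin n → Coch (Quo act sol)) (b : Coch (Quo act sol)),
      VirG act ρ S sol P₀ van obs σ v ∧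
      (∀ i, IsEul act (ρ' i) sol (fun x => Submodule.span ℂ {v | ∃ γ : ℂ → E, AnalyticAt ℂ γ 0 ∧
        (∀ᶠ t in 𝓝 0, γ t ∈ C x) ∧ γ 0 = p x i ∧ v = deriv γ 0})
        (fun x => Submodule.span ℂ (dir (p x i))) (e i)) ∧
      b = ind {y | IsConnected (C (Quo.out y).1) ∧ ∃ γ, IsFund act' (C (Quo.out y).1) γ ∧
          Push (fun c => mp (Quo.out y) (Quo.out c)) γ β} *
        (List.ofFn fun i => (-e i) ^ m i *
          pull (fun y => mp (Quo.out y) ⟨p (Quo.out y).1 i, hp _ i⟩) (a i)).prod ∧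
      CompactSpace (Quo act sol) ∧ b ∈ Zc _ ∧ z = ev v b := by
  have key : ∀ e : Fin n → Coch (Quo act sol),
      Pub.cup (Pub.ind fun y => IsConnected (C (Pub.pick act sol y)) ∧
        ∃ γ f, Pub.IsFund act' (C (Pub.pick act sol y)) γ ∧
          (∀ c, V (Pub.pick act sol y) (Pub.pick act' _ c) (f c)) ∧
          ∀ a, Pub.Zc a → fn β a = γ (Pub.pull f a))
        (Pub.prd (List.ofFn fun i => Pub.cup (Pub.prd (List.replicate (m i) fun u => -(e i).1 u))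
          (Pub.pull (fun y => mp (Quo.out y) ⟨p (Quo.out y).1 i, hp _ i⟩) (a i).1))) =
      (ind {y | IsConnected (C (Quo.out y).1) ∧ ∃ γ, IsFund act' (C (Quo.out y).1) γ ∧
          Push (fun c => mp (Quo.out y) (Quo.out c)) γ β} *
        (List.ofFn fun i => (-e i) ^ m i *
          pull (fun y => mp (Quo.out y) ⟨p (Quo.out y).1 i, hp _ i⟩) (a i)).prod).1 := fun e => by
    rw [val_mul, val_ofFn, val_ind]
    simp only [val_mul, val_pow]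
    exact congrArg (fun q => Pub.cup (Pub.ind q) _)
      (funext fun y => propext (and_congr_right fun _ => class_iff hV (Quo.out y)))
  constructor
  · rintro ⟨v, ev, e, h1, h2, h3, h4, h5, rfl⟩
    obtain ⟨v, k1, rfl⟩ := isVir_iff.1 h1
    choose e k3 k4 using fun i => isEuler_iff.1 (h3 i)
    obtain rfl := funext k4
    obtain rfl : ev = fun i y => mp (Quo.out y) ⟨p (Quo.out y).1 i, hp _ i⟩ :=
      funext₂ fun i y => (hV (Quo.out y) ⟨_, hp _ i⟩ _).1 (h2 i y)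
    exact ⟨v, e, _, k1, k3, rfl, h4, zc_val.1 ((congrArg Pub.Zc (key e)).mp h5),
      (congrArg (fn v) (key e)).trans (fn_val v _)⟩
  · rintro ⟨v, e, _, h1, h2, rfl, h3, h4, rfl⟩
    exact ⟨fn v, fun i y => mp (Quo.out y) ⟨p (Quo.out y).1 i, hp _ i⟩, fun i => (e i).1,
      isVir_iff.2 ⟨v, h1, rfl⟩, fun i y => (hV (Quo.out y) ⟨_, hp _ i⟩ _).2 rfl,
      fun i => isEuler_iff.2 ⟨e i, h2 i, rfl⟩, h3, (congrArg Pub.Zc (key e)).mpr (zc_val.2 h4),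
      ((congrArg (fn v) (key e)).trans (fn_val v _)).symm⟩

end

end Vale.Agent.P269.Tf
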