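import Vale.Agent.P269.Pub.T2

/-!
# Transfer to the public vocabulary, part 3: curves and charts
-/

set_option linter.unusedSectionVars false

namespace Vale.Agent.P269.Tf

open P291Z Set Function Topology Filter MvPolynomial

section

variable {ι : Type} [Fintype ι] {M : ι → ℕ} {o : ι} {C : Set (V M)}

theorem nz_iff {c : V M} : (∀ i, ∃ s, c i s ≠ 0) ↔ ∀ i, c i ≠ 0 :=
  forall_congr' fun _ => Function.ne_iff.symm

theorem isBranch_iff {γ : ℂ → V M} : Pub.IsBranch (E := ∀ i, Pub.Cn (M i)) (F := Pub.Cn (M o))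
    (fun c => c o) C γ ↔ IsBranch o C γ :=
  ⟨fun h => ⟨h.1, h.2.1, h.2.2⟩, fun h => ⟨h.1, h.2, h.3⟩⟩

theorem isCross_iff {c : V M} {γ δ : ℂ → V M} : Pub.IsCross (E := ∀ i, Pub.Cn (M i))
    (F := Pub.Cn (M o)) (fun c => c o) C c γ δ ↔ IsCross o C c γ δ :=
  and_congr isBranch_iff (and_congr isBranch_iff Iff.rfl)

theorem isCurve_iff {g : ℤ} {m : ι → ℤ} : Pub.IsCurve (E := ∀ i, Pub.Cn (M i)) (F := Pub.Cn (M o))
    (fun c => c o) C (fun c => ∀ i, ∃ s, c i s ≠ 0) (fun t c i s => t i * c i s)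
    (fun a => range (Pub.Tn.diag (M := M) (τ := Pub.sl a))) g m ↔ IsCurve o g m C := by
  have e : ∀ a : ι → ℕ, (fun (q : V M → ℂ) (c : C) => q c) ''
      range (Pub.Tn.diag (M := M) (τ := Pub.sl a)) = range fun (μ : Tens M a) (c : C) => val μ c :=
    fun a => (range_comp _ _).symm
  constructor
  · rintro ⟨h1, h2, h3, h4, h5⟩
    refine ⟨fun c hc => nz_iff.1 (h1 c hc), fun c hc k => h2 c hc (nz_iff.2 k), h3,
      fun c hc => (h4 c hc).imp fun γ => Exists.imp fun δ k => ⟨k.1.imp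
        (fun k => ⟨isBranch_iff.1 k.1, k.2⟩) isCross_iff.1, k.2⟩, fun a ha f hf => ?_, fun a ha => ?_⟩
    · obtain ⟨_, ⟨μ, rfl⟩, k⟩ := (h5 a (Function.ne_iff.1 ha)).1 f hf.1 hf.2
        fun γ k => hf.3 γ (isBranch_iff.1 k)
      exact ⟨μ, k⟩
    · rw [← e]
      exact (h5 a (Function.ne_iff.1 ha)).2
  · rintro ⟨h1, h2, h3, h4, h5, h6⟩
    refine ⟨fun c hc => nz_iff.2 (h1 c hc), fun c hc k => h2 c hc (nz_iff.1 k), h3,
      fun c hc => (h4 c hc).imp fun γ => Exists.imp fun δ k => ⟨k.1.imp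
        (fun k => ⟨isBranch_iff.2 k.1, k.2⟩) isCross_iff.2, k.2⟩, fun a ha => ⟨fun f k1 k2 k3 => ?_, ?_⟩⟩
    · obtain ⟨μ, k⟩ := h5 a (Function.ne_iff.2 ha) f ⟨k1, k2, fun γ k => k3 γ (isBranch_iff.2 k)⟩
      exact ⟨_, ⟨μ, rfl⟩, k⟩
    · have := h6 a (Function.ne_iff.2 ha)
      rw [← e] at this
      exact this

end

variable {ι R J K : Type} [Fintype ι] [DecidableEq ι] [Fintype R] [Fintype J] [Fintype K]
  {ch : Ch ι J} {n : ℕ}

theorem gr_eq (x : ch.W (Fin n)) : Pub.Gr (E := ∀ i, Pub.Cn (ch.M i)) (Z := ∀ l, Pub.Du (ch.h l))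
    (fun c => ∀ i, ∃ s, c i s ≠ 0) (fun _ => Pub.Tn.diag) (fun z l => Pub.dap (z l))
    (fun l => Pub.mav (τ := Pub.sl (ch.a l)) (x.1 l)) = Ch.gr x :=
  Set.ext fun _ => and_congr nz_iff Iff.rfl

theorem base_iff (x : ch.W (Fin n)) : Pub.Base (E := ∀ i, Pub.Cn (ch.M i)) (F := Pub.Cn (ch.M ch.o))
    (Z := ∀ l, Pub.Du (ch.h l)) (fun c => c ch.o) (fun c => ∀ i, ∃ s, c i s ≠ 0)
    (fun t c i s => t i * c i s) (fun a => range (Pub.Tn.diag (M := ch.M) (τ := Pub.sl a))) ch.g ch.m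
    (fun _ => Pub.Tn.diag) (fun z l => Pub.dap (z l)) (fun l => Pub.mav (τ := Pub.sl (ch.a l)) (x.1 l))
    ch.k (Pub.wedge (o := ch.o) (b := ch.bω)) x.2.1 (Pub.mav x.2.2.1) ↔ x ∈ ch.base (Fin n) := by
  have e1 : ∀ c, (∃ γ δ, Pub.IsCross (E := ∀ i, Pub.Cn (ch.M i)) (F := Pub.Cn (ch.M ch.o))
      (fun c => c ch.o) (Ch.crv x) c γ δ) ↔ IsNode ch.o (Ch.crv x) c :=
    fun c => exists₂_congr fun _ _ => isCross_iff
  have e2 : ∀ {a b : ℂ} {q q' : Prop} {_ : Decidable q} {_ : Decidable q'} {t u v : ℂ}, (q ↔ q') → a = b →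
      (a = u * (if q then t else 1) ^ ch.k * v ↔ b = u * (if q' then t else 1) ^ ch.k * v) :=
    fun h e => by rw [if_congr h rfl rfl, e]
  unfold Pub.Base
  rw [gr_eq]
  refine and_congr Iff.rfl (and_congr (forall₃_congr fun _ _ _ => funext_iff.symm)
    (and_congr isCurve_iff (and_congr (forall_congr' fun _ => and_congr Iff.rfl (e1 _).not)
    (and_congr Iff.rfl (and_congr (forall_congr' fun γ => imp_congr isBranch_iff
      (exists_congr fun r => and_congr Iff.rfl ?_)) (forall₅_congr fun c γ δ r s => imp_congr isCross_iff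
        (imp_congr ?_ (imp_congr ?_ Iff.rfl)))))))) <;>
  exact exists_congr fun f => and_congr Iff.rfl (and_congr Iff.rfl (eventually_congr
    (.of_forall fun t => forall₃_congr fun _ _ _ => e2 (or_congr (e1 _) Iff.rfl) rfl)))

variable (T : Tgt R J K)

theorem val_iff (x : ch.sol (Fin n) T) (c : Ch.crv x.1) (y : T.X) :
    (∃ z, (c.1, z) ∈ Ch.gr x.1 ∧ ∃ y' : T.cone,
      (∀ j μ, z (some j) (x.1.X j μ) = y'.1 j * val μ c.1) ∧ y = Quo.mk T.act y') ↔
      y = Ch.map x c := by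
  have h1 := c.2.choose_spec
  have h2 := (x.2.2 _ h1.1).choose_spec
  have h3 : (c.1, c.2.choose.2) = c.2.choose := Prod.ext h1.2.symm rfl
  refine ⟨fun ⟨z, k1, y', k2, k3⟩ => k3.trans (congrArg _ (Subtype.ext (funext fun j => ?_))),
    fun k => ⟨c.2.choose.2, h3.symm ▸ h1.1, ⟨_, h2.1⟩, fun j μ => (h2.2 j μ).trans (congrArg (_ * val μ ·) h1.2), k⟩⟩
  choose ζ hζ using fun i => Function.ne_iff.1 (k1.1 i)
  have h4 : val (Ch.pw (fun i => ContinuousLinearMap.proj (ζ i)) (ch.b j)) c.1 ≠ 0 :=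
    Finset.prod_ne_zero_iff.2 fun s _ => hζ s.1
  refine mul_right_cancel₀ h4 ((k2 j _).symm.trans (Eq.trans ?_ ((h2.2 j _).trans (congrArg (_ * val _ ·) h1.2))))
  obtain ⟨μ, e⟩ := x.2.1.1 (some j) (x.1.X j (Ch.pw (fun i => ContinuousLinearMap.proj (ζ i)) (ch.b j)))
  rw [← e]
  exact (k1.2 _ μ).trans ((congrArg (val μ) h1.2).symm.trans (h1.1.2 _ μ).symm)

section

variable {M : ι → ℕ} {o : ι} {g : ℤ} {m : ι → ℤ} {a : Option J → ι → ℕ} {h : Option J → ℕ} {k : ℕ}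
  {w b : ι → ℕ} (e : K → ι → ℕ)

variable (M o g m a h k w b) in
/-- A chart with the same twist for all coordinates. -/
abbrev cch : Ch ι J := ⟨M, o, g, m, a, h, k, w, fun _ => b⟩

theorem pol_iff (κ : (cch M o g m a h k w b).P K) :
    ((∀ j, κ.1 j ∈ Pub.spn {f | ∃ l ∈ range (Pub.Hom.ap (E := Pub.Tn M (Pub.sl b)) (F := ℂ)),
      ∃ l' ∈ range (Pub.Hom.ap (E := Pub.Tn M (Pub.sl b)) (F := ℂ)), ∃ μ : Pub.Tn M (Pub.sl b),
      ∃ φ ∈ range fun y (z : ∀ l, Pub.Du (h l)) => Pub.dap (z (some j)) y,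
        f = fun (z : (∀ i, Pub.Cn (M i)) × ∀ l, Pub.Du (h l)) m =>
          l m.1 * l' m.2 * μ.diag z.1 * φ z.2}) ∧
      ∀ q, κ.2 q ∈ Pub.spn (Pub.gens (E := ∀ i, Pub.Cn (M i)) (T.F q).support
        (Pub.prods (fun i => range fun y (ζ : ∀ i, Pub.Du (M i)) => Pub.dap (ζ i) y) (e q))
        (fun j => range fun y (z : ∀ l, Pub.Du (h l)) => Pub.dap (z (some j)) y)
        fun α => range (Pub.Tn.diag (M := M) (τ := Pub.sl fun i => e q i - ∑ j, α j * b i)))) ↔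
    κ ∈ (cch M o g m a h k w b).pol T e := by
  refine and_congr (forall_congr' fun j => Iff.trans ?_ (imp_iff_right trivial).symm)
    (forall_congr' fun q => Iff.trans ?_ (imp_iff_right trivial).symm)
  · refine iff_of_eq (congrArg (fun S => κ.1 j ∈ Submodule.span ℂ S) (Set.ext fun f => ⟨?_, ?_⟩))
    · rintro ⟨_, ⟨l, rfl⟩, _, ⟨l', rfl⟩, μ, _, ⟨y, rfl⟩, rfl⟩
      exact ⟨l, l', μ, y, rfl⟩
    · rintro ⟨l, l', μ, y, rfl⟩
      exact ⟨_, ⟨l, rfl⟩, _, ⟨l', rfl⟩, μ, _, ⟨y, rfl⟩, rfl⟩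
  · refine iff_of_eq (congrArg (fun S => κ.2 q ∈ Submodule.span ℂ S) (Set.ext fun f => ⟨?_, ?_⟩))
    · rintro ⟨α, hα, _, ⟨φ, h1, rfl⟩, _, ⟨ψ, h2, rfl⟩, _, ⟨μ, rfl⟩, rfl⟩
      choose v hv using h1
      choose y hy using h2
      obtain rfl := funext hv
      obtain rfl := funext hy
      exact ⟨α, hα, v, y, μ, rfl⟩
    · rintro ⟨α, hα, v, y, μ, rfl⟩
      exact ⟨α, hα, _, ⟨_, fun s => ⟨v s, rfl⟩, rfl⟩, _, ⟨_, fun s => ⟨y s, rfl⟩, rfl⟩, _, ⟨μ, rfl⟩, rfl⟩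

theorem intg_congr {A W P E A' Y : Type} [NormedRing A] [NormedAlgebra ℂ A] [NormedAddCommGroup W]
    [NormedSpace ℂ W] [NormedAddCommGroup E] [NormedSpace ℂ E] [AddCommGroup P] [Module ℂ P]
    [TopologicalSpace P] [NormedRing A'] [NormedAlgebra ℂ A'] [TopologicalSpace Y]
    {act : A → W → W} {ρ : A → P → P} {S S' sol sol' : Set W} {pol pol' : Set P}
    {van van' obs obs' : W → Set P} {σ : W → P} {act' : A' → E → E} {C C' : W → Set E}
    {V V' : W → E → Y → Prop} {p : W → Fin n → E} {ρ' : Fin n → A → E → E} {dir dir' : E → Set E}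
    (h1 : S = S') (h2 : sol = sol') (h3 : pol = pol') (h4 : van = van') (h5 : obs = obs')
    (h6 : C = C') (h7 : V = V') (h8 : dir = dir') :
    Pub.Intg act ρ S sol pol van obs σ act' C V p ρ' dir =
      Pub.Intg act ρ S' sol' pol' van' obs' σ act' C' V' p ρ' dir' := by
  subst h1 h2 h3 h4 h5 h6 h7 h8
  rfl

theorem chart_iff {β : BM T.X} {u : Fin n → ℕ} {c : Fin n → Coch T.X} {z : ℂ} :
    Pub.Chart (Y := T.X) n M (Pub.slot o k w) h (fun l => Pub.sl (a l)) (Pub.sl b) o k Pub.wedge g m b e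
      T.F T.cone (Quo.mk T.act) (fn β) (fun i => (u i, (c i).1)) z ↔
    ∃ v e' s, (cch M o g m a h k w b).IsVir (Fin n) T e v ∧
      (∀ i, (cch M o g m a h k w b).IsTan T i (e' i)) ∧ s = (cch M o g m a h k w b).igd T β u e' c ∧
      CompactSpace ((cch M o g m a h k w b).Mod (Fin n) T) ∧ s ∈ Zc _ ∧ z = ev v s := by
  let ch := cch M o g m a h k w b
  have e1 := fun x => gr_eq (ch := ch) (n := n) x
  have e2 := fun κ => pol_iff (o := o) (g := g) (m := m) (a := a) (h := h) (k := k) (w := w) (b := b)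
    (M := M) T e κ
  unfold Pub.Chart Pub.IntgE
  refine Iff.trans (iff_of_eq (congrFun₃ (intg_congr
    (S' := ch.base (Fin n)) (sol' := ch.sol (Fin n) T) (pol' := (ch.pol T e : Set (ch.P K)))
    (van' := Ch.van (ch := ch) T e) (obs' := Ch.obs (ch := ch) T e) (C' := Ch.crv (ch := ch))
    (V' := fun (x : ch.W (Fin n)) c y => ∃ z, (c, z) ∈ Ch.gr x ∧ ∃ y' : T.cone,
      (∀ j μ, z (some j) (x.X j μ) = y'.1 j * val μ c) ∧ y = Quo.mk T.act y')
    (dir' := fun c : V M => range fun i => (Pi.single i (c i) : V M))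
    ?_ ?_ ?_ ?_ ?_ ?_ ?_ ?_) _ _ _)) ?_
  · exact Set.ext (base_iff (ch := ch))
  · exact Set.ext fun x => and_congr (base_iff (ch := ch) x)
      (iff_of_eq (congrArg (fun G : Set ch.Pt => ∀ z ∈ G, ∃ y ∈ T.cone, ∀ j μ,
        z.2 (some j) (Ch.W.X (ch := ch) x j μ) = y j * val μ z.1) (e1 x)))
  · exact Set.ext e2
  · refine funext fun x => Set.ext fun κ => and_congr (e2 κ) ?_
    exact forall_congr' fun z => imp_congr (Set.ext_iff.1 (e1 x) z) (and_congr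
      (forall_congr' fun _ => funext_iff.symm) (forall_congr' fun _ => funext_iff.symm))
  · refine funext fun x => Set.ext fun κ => and_congr (e2 κ) ?_
    refine forall_congr' fun z => imp_congr (Set.ext_iff.1 (e1 x) z) ⟨fun ⟨y, k1, k2⟩ => ?_,
      fun ⟨y, k⟩ => ⟨fun j => y j, fun j => ⟨y j, rfl⟩, k⟩⟩
    choose y' hy using k1
    obtain rfl := funext hy
    exact ⟨y', k2⟩
  · exact funext fun x => congrArg (Prod.fst '' ·) (e1 x)
  · exact funext₃ fun x c y => congrArg (fun G : Set ch.Pt => ∃ z, (c, z) ∈ G ∧ ∃ y' : T.cone,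
      (∀ j μ, z (some j) (Ch.W.X (ch := ch) x j μ) = y'.1 j * val μ c) ∧ y = Quo.mk T.act y') (e1 x)
  · exact funext fun c => congrArg range (funext fun i =>
      congrArg (fun d : DecidableEq ι => @update ι (fun i => Fin (M i) → ℂ) d 0 i (c i))
        (Subsingleton.elim _ _))
  · exact intg_iff (A := ch.A (Fin n)) (W := ch.W (Fin n)) (P := ch.P K) (E := V M) (act := Ch.act)
      (ρ := Ch.ρ) (mp := Ch.map) (val_iff T) fun x i => (x.2.1.2.2.2.1 i).1

end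

/-- The predicate defining the invariants. -/
def GWo [DecidableEq R] (g : ℤ) (β : BM T.X) (n : ℕ) (u : Fin n → ℕ) (c : Fin n → Coch T.X)
    (d : R → ℤ) (z : ℂ) : Prop :=
  ∀ᶠ k in atTop, ∀ᶠ D in atTop, ∃ v e s, (T.chart g n d k D).IsVir (Fin n) T
    (fun q o => (T.F q).totalDegree * ∑ j, (T.chart g n d k D).b j o) v ∧
    (∀ i, (T.chart g n d k D).IsTan T i (e i)) ∧ s = (T.chart g n d k D).igd T β u e c ∧
    CompactSpace ((T.chart g n d k D).Mod (Fin n) T) ∧ s ∈ Zc _ ∧ z = ev v s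

theorem chart_ci {N r : ℕ} (F : Fin r → MvPolynomial (Fin (N + 1)) ℂ) (g d : ℤ) (n k D : ℕ) :
    (ci F).chart g n (fun _ => d) k D =
      let m : Option Unit → ℤ := fun o => k * (2 * g - 2 + n + 3 * d) + o.elim 0 fun _ => d
      let a : Option (Fin (N + 1)) → ℕ := fun l => l.elim D fun _ => 1
      cch (fun o => (m o + 1 - g).toNat) none g m (fun l _ => a l)
        (fun l => (∑ o, a l * m o + 1 - g).toNat) k
        (fun o => o.elim (D - (5 * k + 1)) fun _ => D + 3 * k) fun o => o.elim 2 fun _ => 0 := by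
  have e1 : ∀ (l : Option (Fin (N + 1))) (o : Option Unit), (l.elim D fun j => (Tgt.hat ((ci F).w j) o +
      (o.elim (1 + ∑ i, ((ci F).w j i).natAbs) (fun i => (-(ci F).w j i).toNat) : ℕ)).toNat) =
      l.elim D fun _ => 1 := by
    rintro (_ | j) (_ | o) <;> rfl
  have e2 : ∑ i, (ci F).θ i * d = 3 * d := Fintype.sum_unique _
  simp only [Tgt.chart, e1, e2]
  congr 1
  funext o
  rcases o with _ | o <;> simp [Tgt.hat, ci] <;> omega

theorem isGW_iff {N r : ℕ} (F : Fin r → MvPolynomial (Fin (N + 1)) ℂ) {g d : ℤ} {β : BM (ci F).X}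
    {u : Fin n → ℕ} {c : Fin n → Coch (ci F).X} {z : ℂ} :
    Pub.IsGW (Y := (ci F).X) F (ci F).cone (Quo.mk (ci F).act) g (fn β) n (fun i => (u i, (c i).1)) d z ↔
      GWo (ci F) g β n u c (fun _ => d) z := by
  refine eventually_congr (.of_forall fun k => eventually_congr (.of_forall fun D => ?_))
  rw [chart_ci]
  exact chart_iff (ci F) _

end Vale.Agent.P269.Tf
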