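import Vale.Agent.P269.Br.C1
import Vale.Agent.P269.Pub.GwD

/-!
# Transfer to the public vocabulary, part 5: fundamental class and canonical class
-/

set_option linter.unusedSectionVars false
set_option linter.style.haveILetI false

namespace Vale.Agent.P269.Tf

open P291Z Set Function Topology Filter Holo Mono Tq Module Ch Grr Br.C1

section

variable {A W P : Type} [NormedRing A] [NormedAlgebra ℂ A] [NormedAddCommGroup W] [NormedSpace ℂ W]
  [AddCommGroup P] [Module ℂ P] [TopologicalSpace P] {act : A → W → W} {S : Set W} {Y : Ch.Sp}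

/-- Euler cocycles exist and are cohomologous. -/
def EulOk (act : A → W → W) (ρ : A → P → P) (S : Set W) (B N : W → Submodule ℂ P) : Prop :=
  (∃ e, IsEul act ρ S B N e) ∧
    ∀ e, IsEul act ρ S B N e → supp (δ e) = ∅ ∧ hcls e = hcls (eulerC act ρ S B N)

theorem eulOk_of {p : Pres Y act S} {ρ : A → P → P} {B N : W → Submodule ℂ P} {E₀ E : VB Y}
    {ι : E₀.W →ₗ[ℂ] P} {M : Y.T → E₀.W →ₗ[ℂ] E.W} (h : IsMod p ρ B N E₀ E ι M) :
    EulOk act ρ S B N := by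
  obtain ⟨t, ht⟩ := h.exists_isThomOf
  refine ⟨⟨_, t, ht, rfl⟩, ?_⟩
  rintro _ ⟨t, ht, rfl⟩
  exact ⟨(h.isCo_sec E.isSec_zero h.exists_zero ht).cocycle,
    ((h.cohom_sec E.isSec_zero h.exists_zero ht).trans (h.cohom_sec E.isSec_zero h.exists_zero
      (Classical.epsilon_spec h.exists_isThomOf)).symm).hcls_eq h.eulerC_cocycle⟩

theorem eulOk_can {T : VB Y} {n : ℕ} (hT : T.r = n + 1) {x : Y.T → T.W} (hc : Continuous x)
    (hx : ∀ t, x t ∈ T.F t) (h0 : ∀ t, x t ≠ 0) (he : ∀ (g : Y.G) t, g • x t = x (g • t))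
    (p : Pres Y act S) {ρ : A → T.W [⋀^Fin n]→L[ℂ] ℂ → T.W [⋀^Fin n]→L[ℂ] ℂ}
    {B N : W → Submodule ℂ (T.W [⋀^Fin n]→L[ℂ] ℂ)}
    (hρ : ∀ (g : Y.G) ω v, ρ (p.u g) ω v = ω fun i => g⁻¹ • v i)
    (hB : ∀ t ω, ω ∈ B (p.i t) ↔ ∀ v, (∀ s, v s ∈ T.F t) → (∃ s, v s = x t) → ω v = 0)
    (hN : ∀ t ω, ω ∈ N (p.i t) ↔ ∀ v, (∀ s, v s ∈ T.F t) → ω v = 0) : EulOk act ρ S B N := by
  obtain ⟨F, a1, a2, a3, a4⟩ := exists_top hT hc hx h0 he
  have h1 : ∀ t (ω : (frm T n).W), fc ω ∈ B (p.i t) ↔ rsF T n t ω ∈ F t := fun t ω =>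
    (hB t _).trans (Iff.trans ⟨fun h => ⟨rsF_mem, fun v i e => h _ (fun _ => T.P_mem _ _)
      ⟨i, (congrArg (T.P t) e).trans (T.P_eq (hx t))⟩⟩, fun h v hv ⟨s, e⟩ =>
      (rsF_of hv).symm.trans (h.2 v s e)⟩ (a4 t _).symm)
  have h2 : ∀ t (ω : (frm T n).W), rsF T n t ω = 0 ↔ fc ω ∈ N (p.i t) := fun t ω =>
    ⟨fun h => (hN t _).2 fun v hv => (rsF_of hv).symm.trans (by rw [h]; rfl),
      fun h => fc_ext fun v => (hN t _).1 h _ fun _ => T.P_mem _ _⟩
  have h3 : ∀ t, F t ≤ (frm T n).F t := fun t _ h => ((a4 t _).1 h).1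
  have hm : IsMod p ρ B N ((frm T n).sub (fun t => (F t).comap (rsF T n t)) _
      (a1.preimage (f := fun z : Y.T × (frm T n).W => (z.1, rsF T n z.1 z.2))
        (continuous_fst.prodMk continuous_rsF))
      (fun t => (finrank_comap (h3 t)).trans (congrArg (· + _) (a2 t)))
      fun g t ω h => (congrArg (· ∈ F (g • t)) (rsF_smul g)).mpr (a3 g t _ h))
      ((frm T n).sub F 1 a1 a2 a3) LinearMap.id (rsF T n) :=
    { emb := IsEmbedding.id
      map := fun t => (Submodule.map_id _).trans (Submodule.ext fun ω => (h1 t ω).symm)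
      eqv := fun g t ω _ => (congrArg (· ∈ N _) (sub_eq_zero.2 (ContinuousAlternatingMap.ext
        fun v => (fc_smul g ω v).trans (hρ g _ v).symm))).mpr (zero_mem _)
      le := fun t ω h => (hB t ω).2 fun v hv _ => (hN t ω).1 h v hv
      hom := Hom.of_continuous (fun _ _ h => h) continuous_rsF fun g _ _ _ => rsF_smul g
      surj := fun t ω h => ⟨ω, (congrArg (· ∈ F t) (rsF_eq (h3 t h))).mpr h, rsF_eq (h3 t h)⟩
      ker := fun t ω _ => h2 t ω }
  exact eulOk_of hm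

theorem eulOk_ker {E E' : VB Y} {n : ℕ} {D : Y.T → E.W →ₗ[ℂ] E'.W} (hD : Hom (Mor.id Y) E E' D)
    (h₁ : ∀ t v, v ∈ E.F t) (hr : ∀ t, finrank ℂ (LinearMap.ker (D t)) = n + 1) {x : Y.T → E.W}
    (hc : Continuous x) (hx : ∀ t, D t (x t) = 0) (h0 : ∀ t, x t ≠ 0)
    (he : ∀ (g : Y.G) t, g • x t = x (g • t)) {s : Y.G → ℂ}
    (h₃ : ∀ (g : Y.G) (v : E.W), g • v = s g • v) (hs : ∀ g, s g ≠ 0)
    (p : Pres Y act S) {ρ : A → E.W [⋀^Fin n]→L[ℂ] ℂ → E.W [⋀^Fin n]→L[ℂ] ℂ}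
    {B N : W → Submodule ℂ (E.W [⋀^Fin n]→L[ℂ] ℂ)}
    (hρ : ∀ (g : Y.G) ω v, ρ (p.u g) ω v = ω fun i => (s g)⁻¹ • v i)
    (hB : ∀ t ω, ω ∈ B (p.i t) ↔ ∀ v, (∀ i, D t (v i) = 0) → (∃ i, v i = x t) → ω v = 0)
    (hN : ∀ t ω, ω ∈ N (p.i t) ↔ ∀ v, (∀ i, D t (v i) = 0) → ω v = 0) : EulOk act ρ S B N :=
  eulOk_can (T := E.sub (fun t => LinearMap.ker (D t)) _
      (isClosed_eq (hD.continuous continuous_fst continuous_snd fun _ => h₁ _ _) continuous_const)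
      hr fun g t v k => (hD.eqv g t v (h₁ _ _)).trans ((congrArg _ k).trans (smul_zero _))) rfl
    hc hx h0 he p (fun g ω v => (hρ g ω v).trans (congrArg ω (funext fun _ =>
      (eq_inv_smul_iff (α := E.W)).2 ((h₃ _ _).trans (smul_inv_smul₀ (hs g) _))))) hB hN

end

variable {N c : ℕ} {d : Fin c → ℕ} {F : Fin c → MvPolynomial (Fin (N + 1)) ℂ}

variable (F) in
/-- The action on forms. -/
noncomputable def kρ (n : ℕ) (t : Unit → ℂ) (ω : (Fin (N + 1) → ℂ) [⋀^Fin n]→L[ℂ] ℂ) :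
    (Fin (N + 1) → ℂ) [⋀^Fin n]→L[ℂ] ℂ :=
  ω.compContinuousLinearMap (.pi fun j => (∏ i, t i ^ (ci F).w j i)⁻¹ • .proj j)

variable (F) in
/-- The forms that vanish on the orbit direction. -/
noncomputable def kB (n : ℕ) (x : Fin (N + 1) → ℂ) : Submodule ℂ ((Fin (N + 1) → ℂ) [⋀^Fin n]→L[ℂ] ℂ) :=
  ⨅ v ∈ {v : Fin n → Fin (N + 1) → ℂ | (∀ s, v s ∈ (ci F).tan x) ∧
    ∃ s i, v s = fun j => (ci F).w j i * x j}, LinearMap.ker
      (ContinuousAlternatingMap.apply ℂ (Fin (N + 1) → ℂ) ℂ v).toLinearMap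

variable (F) in
/-- The forms that vanish on the tangent space. -/
noncomputable def kN (n : ℕ) (x : Fin (N + 1) → ℂ) : Submodule ℂ ((Fin (N + 1) → ℂ) [⋀^Fin n]→L[ℂ] ℂ) :=
  ⨅ v ∈ {v : Fin n → Fin (N + 1) → ℂ | ∀ s, v s ∈ (ci F).tan x}, LinearMap.ker
    (ContinuousAlternatingMap.apply ℂ (Fin (N + 1) → ℂ) ℂ v).toLinearMap

theorem kρ_apply {n : ℕ} (t ω v) : kρ F n t ω v = ω fun i => (t ())⁻¹ • v i :=
  congrArg ω (funext₂ fun i j => congrArg (·⁻¹ * v i j) (by simp [ci]))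

theorem mem_kB {n : ℕ} {x ω} :
    ω ∈ kB F n x ↔ ∀ v, (∀ s, v s ∈ (ci F).tan x) → (∃ s, v s = x) → ω v = 0 := by
  have e : ∀ z : ℂ, ((1 : ℤ) : ℂ) * z = z := fun z => by simp
  simp only [kB, Submodule.mem_iInf]
  exact forall_congr' fun v => and_imp.trans (imp_congr Iff.rfl (imp_congr_left (exists_congr
    fun s => ⟨fun ⟨_, k⟩ => k.trans (funext fun _ => e _),
      fun k => ⟨(), k.trans (funext fun _ => (e _).symm)⟩⟩)))

theorem mem_kN {n : ℕ} {x ω} : ω ∈ kN F n x ↔ ∀ v, (∀ s, v s ∈ (ci F).tan x) → ω v = 0 := by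
  simp only [kN, Submodule.mem_iInf]
  exact Iff.rfl

theorem c1_eq (n : ℕ) :
    (ci F).c1 n = -hcls (eulerC (ci F).act (kρ F n) (ci F).cone (kB F n) (kN F n)) := rfl

theorem eulOk_ci (h : SmCI F d) (hc : c ≤ N) :
    EulOk (ci F).act (kρ F (N - c)) (ci F).cone (kB F (N - c)) (kN F (N - c)) := by
  haveI := h.good.fp
  have hD := h.good.hom_dG
  have hg : ∀ (g : (Empty → ℂ) × (Unit → ℂ)) ψ, chT ψ (fun _ => 1) g = g.2 () :=
    fun g ψ => by simp [chT]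
  have hr : ∀ t, finrank ℂ (LinearMap.ker ((ciF F d).dG t)) = N - c + 1 := fun t => by
    have := ((ciF F d).dG t).finrank_range_add_finrank_ker
    rw [LinearMap.range_eq_top.2 fun v => (h.tg.reg.ind _ t.val_mem v).imp fun _ e =>
      funext fun k => e.2 k trivial, finrank_top, finrank_fintype_fun_eq_card,
      finrank_fintype_fun_eq_card, Fintype.card_fin, Fintype.card_fin] at this
    omega
  exact eulOk_ker hD (fun _ _ => trivial) hr
    (x := fun t => t.val.2) (continuous_snd.comp (Sp.continuous_val (act := (ciF F d).actT)))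
    (fun t => mem_ker.2 (euler h (mem_ciF.1 t.val_mem))) (fun t => (mem_ciF.1 t.val_mem).1)
    (fun _ _ => rfl) (s := fun g => g.val.2 ())
    (fun g v => funext fun j => congrArg (· * v j) (hg _ _))
    (fun g => (isUnit_T.1 g.isUnit).2 ()) (@Tgt.presF _ _ _ _ _ _ (ci F) _ this)
    (fun g ω v => kρ_apply _ _ _)
    (fun t ω => mem_kB.trans (forall_congr' fun v => imp_congr_left
      (forall_congr' fun _ => mem_ker.symm)))
    fun t ω => mem_kN.trans (forall_congr' fun v => imp_congr_left (forall_congr' fun _ => mem_ker.symm))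

theorem compact_ci (h : SmCI F d) : CompactSpace (ci F).X :=
  @Homeomorph.compactSpace _ _ _ _ h.tg.compact ((ci F).xi fun k _ => d k)

theorem fund_ci (h : SmCI F d) : ∃! β, IsFund (ci F).act (ci F).cone β := by
  haveI := h.good.fp
  have k := fun β k1 => FP.eq_fundQ h.tg.dim.holOrb ((Tgt.tr_fam (T := ci F) (χ := fun k _ => d k)).symm.isFund
    (S := (ci F).cone) (S' := (ciF F d).cone) (fun _ => ⟨fun k => Tgt.mem_fam.2 k, fun k => Tgt.mem_fam.1 k⟩)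
    (Φ := ((ci F).xi fun k _ => d k).symm) Tgt.xi_symm (β := β) k1)
  refine existsUnique_of_exists_of_unique ⟨_, Tgt.tr_fam.isFund (fun _ => Tgt.mem_fam)
    (Φ := (ci F).xi fun k _ => d k) (fun _ => rfl) h.tg.dim.isFund⟩ fun β β' a b => ?_
  exact (Br.push_symm_push ((ci F).xi fun k _ => d k).symm β).symm.trans
    ((congrArg (push _) ((k β a).trans (k β' b).symm)).trans (Br.push_symm_push _ β'))

end Vale.Agent.P269.Tf
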