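import Vale.Agent.P269.Pub.Vir

/-!
# Public vocabulary, part 4: the Virasoro constraints for all Hodge bases
-/

noncomputable section

namespace Vale.Agent.P269.Pub

open Set MvPolynomial Classical

/-- The Virasoro constraints for a target `Y` of dimension `n` with Hodge types `Hdg`, fundamental
class `Fund`, canonical class `Can` and invariants `GW`. The invariants are well defined numbers `N`;
they vanish unless `d ≥ 0` is the degree of `β`, in the stable range, and finitely many classes `β`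
occur for given `g`, `n`, `d` (so all sums in `sexp` are finite);
there are cocycles `φ a` whose classes form a basis, and for all such bases consisting of classes of
Hodge types `(p a, q a)` the operators `L_k`, `k ≥ -1`, annihilate `Z = exp (∑ ħ^(g-1) F_g)`. -/
def VirasoroW {Y : Type} [TopologicalSpace Y] (Hdg : ℕ → ℕ → Co Y → Prop) (Fund : Bm Y → Prop)
    (Can : Co Y → Prop) (GW : ℤ → Bm Y → ∀ n, (Fin n → ℕ × Co Y) → ℤ → ℂ → Prop) (n : ℕ) : Prop :=
  let Dt := fun (B : ℕ) (φ : Fin B → Co Y) (η R : Matrix (Fin B) (Fin B) ℂ) (u : Fin B → ℂ) =>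
    let E := fun x (y : Fin B → ℂ) => Cohom univ x fun l => ∑ b, y b * φ b l
    (∀ a, Zc (φ a)) ∧ (∀ x, Zc x → ∃! y, E x y) ∧ E unit u ∧
      (∃ X, Fund X ∧ ∀ a b, η a b = X (cup (φ a) (φ b))) ∧
      ∃ e, Can e ∧ ∀ a, E (fun l => -cup e (φ a) l) (R a)
  ∃ (N : ℤ → Bm Y → ∀ n, (Fin n → ℕ × Co Y) → ℤ → ℂ) (h : Co Y),
  (∀ g β n l d z, 0 ≤ g → IsBM β → (∀ i, Zc (l i).2) → (GW g β n l d z ↔ z = N g β n l d)) ∧
  (∀ g β n l d, N g β n l d ≠ 0 → 0 ≤ g ∧ IsBM β ∧ β h = d ∧ 0 ≤ d ∧ 0 < 2 * g - 2 + n + 3 * d) ∧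
  (∀ g n d, {β | ∃ l, N g β n l d ≠ 0}.Finite) ∧
  (∃ B φ η R u, Dt B φ η R u) ∧
  ∀ B φ η R u (p q : Fin B → ℕ), Dt B φ η R u → (∀ a, Hdg (p a) (q a) (φ a)) →
    let π := fun a => p a + q a
    ∀ k β j l, virL π p u η R n k (fun j l => sexp π (fun l β j =>
      ∑ᶠ d, N (j + 1) β l.length (fun i => ((l.get i).1, φ (l.get i).2)) d) l β j) j l = 0

/-- The Virasoro conjecture for the subvariety, of dimension `n`; `T x` is the tangent space of the
cone. -/
def ConjW {J K : Type} [Fintype J] (F : K → MvPolynomial J ℂ) (n : ℕ) : Prop :=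
  let S := cone F
  let T := fun x : J → ℂ => {v | ∀ k, ∑ j, v j * eval x (pderiv j (F k)) = 0}
  let π : S → Var F := Quot.mk _
  VirasoroW (IsHodge S T π) (IsFund scal S) (IsCan scal S T (fun t => t ()) n) (IsGW F S π) n

end Vale.Agent.P269.Pub
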