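import Vale.Agent.P269.Pub.T7
import Vale.Agent.P269.Pub.VirW
import Vale.Agent.P269.Br.Sel

/-!
# Transfer to the public vocabulary, part 8: the variant without the existence of a Hodge basis
-/

set_option linter.style.haveILetI false

namespace Vale.Agent.P269.Tf

open P291Z Set Function Module MvPolynomial

theorem finH_of {R J K : Type} [Fintype R] [Fintype J] [Fintype K] [DecidableEq R] {T : Tgt R J K}
    {χ : K → R → ℤ} (h : (T.fam χ).Tg) : FiniteDimensional ℂ (H T.X) :=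
  haveI := h.finH
  have k : ∀ a, H.map ((T.xi χ).symm : C(_, _)) (T.xiH χ a) = a := fun _ =>
    (H.map_map _ _ _).trans (H.map_id (T.xi χ).apply_symm_apply _)
  .of_injective (T.xiH χ).toLinearMap (LeftInverse.injective k)

theorem conjW_of (hM : St.Main) (hW : St.Well) (hP : St.Pres) (N r : ℕ)
    (d : Fin r → ℕ) (F : Fin r → MvPolynomial (Fin (N + 1)) ℂ) (hF : ∀ k, (F k).IsHomogeneous (d k))
    (hs : ∀ x ∈ Pub.cone F, LinearIndependent ℂ fun k j => eval x (pderiv j (F k)))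
    (hc : ConnectedSpace (Pub.Var F)) : Pub.ConjW F (N - r) := by
  revert hs hc
  refine transport (F := F) (P := fun act S => (∀ x ∈ S, LinearIndependent ℂ fun k j =>
    eval x (pderiv j (F k))) → ConnectedSpace (Pub.Quo act S) → Pub.VirasoroW (Y := Pub.Quo act S)
      (Pub.IsHodge S (ci F).tan (Quot.mk _)) (Pub.IsFund act S)
      (Pub.IsCan act S (ci F).tan (fun t => t ()) (N - r)) (Pub.IsGW F S (Quot.mk _)) (N - r))
    fun hs (hc : ConnectedSpace (ci F).X) => ?_
  obtain ⟨⟨x, hx⟩, -⟩ := Quot.exists_rep (Classical.arbitrary (ci F).X)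
  have sm := smCI hF hs hx
  haveI := compact_ci sm
  haveI := finH_of (T := ci F) (χ := fun k _ => d k) sm.tg
  obtain ⟨c1, c2⟩ := can_ci sm ⟨x, hx⟩
  obtain ⟨M, s, h1, h0, h6, h2⟩ := exists_N (T := ci F) (St.wd2 hW hP _ (fun k _ => d k) sm.tg
    (ciF_big le_rfl) ciF_ample) fun _ _ _ _ _ _ _ => isGW_iff F
  refine ⟨M, s, h1, h0, h6, ?_, fun B φ η R u p q h h' => core (fund_ci sm) c2
    (fun p q a h => isHodge_iff.2 ⟨a, h, rfl⟩) h0 h2 (hM N r d F hF hs hc B) (fun a => ⟨h.1 a, h' a⟩) h.2⟩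
  choose a h4 using fun b => H.mk_surj (finBasis ℂ (H (ci F).X) b)
  obtain ⟨η, R, u, h5⟩ := dtC_of (fund_ci sm) c1 _ h4
  exact ⟨_, _, η, R, u, fun b => (zc_val (X := (ci F).X)).2 (Zc_of_compact (a b).2), h5⟩

end Vale.Agent.P269.Tf
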