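import Mathlib

/-!
# Public vocabulary, part 1: Alexander-Spanier cochains, Borel-Moore classes, quotient orbifolds,
Thom and Euler cocycles, localised Euler classes

A cochain of degree `k` is a function of lists of `k + 1` points. A group is presented as the unit
group of a finite dimensional normed algebra `A`; `act a` is the action of `a`.
-/

noncomputable section

namespace Vale.Agent.P269.Pub

open Set Function Topology Filter Classical

section

variable {X Y : Type}

variable (X) in
/-- Functions of lists of points. -/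
abbrev Co : Type := List X → ℂ

variable (X) in
/-- Functionals on cochains. -/
abbrev Bm : Type := Co X → ℂ

/-- The cup product. -/
def cup (a b : Co X) : Co X := fun l =>
  ∑ p ∈ Finset.range l.length, a (l.take (p + 1)) * b (l.drop p)

/-- The coboundary. -/
def cob (a : Co X) : Co X := fun l =>
  ∑ i ∈ Finset.range l.length, (-1) ^ i * a (l.eraseIdx i)

/-- The unit: the constant function one of degree zero. -/
def unit : Co X := fun l => if l.length = 1 then 1 else 0

/-- The product of a list of cochains. -/
def prd (a : List (Co X)) : Co X := a.foldr cup unit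

/-- Pull-back along a map. -/
def pull (f : X → Y) (a : Co Y) : Co X := fun l => a (l.map f)

/-- `a` is a finite sum of homogeneous cochains of degrees `0, 1, 2, …`. -/
def Bd (a : Co X) : Prop := a [] = 0 ∧ ∃ N, ∀ l : List X, N < l.length → a l = 0

/-- `a` is homogeneous of degree `k`. -/
def IsDeg (k : ℤ) (a : Co X) : Prop := ∀ l : List X, (l.length : ℤ) ≠ k + 1 → a l = 0

/-- The indicator function of a subset, a cochain of degree zero. -/
def ind (q : X → Prop) : Co X := fun l => if ∃ y, q y ∧ l = [y] then 1 else 0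

/-- The orientation cocycle of `ℂ^r`, with support at the origin: the product of the coboundaries
of the winding cochains `(z₀, z₁) ↦ log (z₁ / z₀) / (2 π i)` of the coordinates. -/
def tau (r : ℕ) : Co (Fin r → ℂ) :=
  prd (List.ofFn fun i => pull (fun z => z i) (cob fun l =>
    if l.length = 2 then Complex.log (l.getD 1 0 / l.getD 0 0) / ((2 : ℕ) * Real.pi * Complex.I) else 0))

variable [TopologicalSpace X]

/-- The support: the points near which `a` does not vanish on all lists of nearby points. -/
def supp (a : Co X) : Set X := {x | ∀ U ∈ 𝓝 x, ∃ l : List X, (∀ y ∈ l, y ∈ U) ∧ a l ≠ 0}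

/-- `a` and `b` are cohomologous through a cochain with support in `U`. -/
def Cohom (U : Set X) (a b : Co X) : Prop :=
  ∃ c, Bd c ∧ supp c ⊆ U ∧ supp (fun l => a l - b l - cob c l) = ∅

/-- Cocycles with compact support. -/
def Zc (a : Co X) : Prop := Bd a ∧ IsCompact (supp a) ∧ supp (cob a) = ∅

/-- Borel-Moore classes: linear functionals on the cocycles with compact support (extended by zero)
that vanish on the coboundaries of cochains with compact support. -/
def IsBM (β : Bm X) : Prop :=
  (∀ a, ¬Zc a → β a = 0) ∧
  (∀ (s : ℂ) a b, Zc a → Zc b → β (fun l => s * a l + b l) = s * β a + β b) ∧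
  ∀ a c, Bd c → IsCompact (supp c) → supp (fun l => a l - cob c l) = ∅ → β a = 0

end

variable {A W P E : Type} [NormedRing A] [NormedAlgebra ℂ A] [NormedAddCommGroup W] [NormedSpace ℂ W]
  [NormedAddCommGroup E] [NormedSpace ℂ E] [AddCommGroup P] [Module ℂ P] [TopologicalSpace P]
  (act : A → W → W) (ρ : A → P → P) (S : Set W) (B N : W → Submodule ℂ P)

/-- The orbit relation. -/
def Orb (x y : S) : Prop := ∃ a, IsUnit a ∧ y.1 = act a x.1

/-- The orbit space `S / Aˣ`. -/
def Quo : Type := Quot (Orb act S)

instance : TopologicalSpace (Quo act S) := instTopologicalSpaceQuot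

/-- A representative of an orbit. -/
def pick (z : Quo act S) : W := (Quot.out z).1

/-- For every holomorphic chart of the orbit space with values in `E`, centred at a point with
trivial stabiliser (a holomorphic map `φ` from an open neighbourhood `U` of `0` to `S`, transverse
to the orbit, that induces an open embedding of `U` in the orbit space), `q` holds and `β` takes
the value one on the cocycle `τ` at the centre. -/
def Ori (τ : Co E) (q : Prop) (β : Bm (Quo act S)) : Prop :=
  ∀ (U : Set E) (φ : U → S) (h : 0 ∈ U), IsOpen U →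
    (∃ Φ : E → W, AnalyticOnNhd ℂ Φ U ∧ (∀ z, (φ z).1 = Φ z.1) ∧
      Injective (fderiv ℂ (fun y : A × E => act y.1 (Φ y.2)) (1, 0)) ∧
      ∀ a, IsUnit a → act a (Φ 0) = Φ 0 → a = 1) →
    let ψ : U → Quo act S := fun z => Quot.mk _ (φ z)
    IsOpenEmbedding ψ → q ∧ ∀ a, Zc a → (∀ y, supp a y → y = ψ ⟨0, h⟩) →
      Cohom {z | z.1 = 0} (pull ψ a) (pull Subtype.val τ) → β a = 1

/-- `β` is the fundamental class of the orbit space, a complex orbifold of pure dimension `d` with
trivial generic stabiliser: it has degree `2 d` and takes the value one on the orientation cocycle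
at the centre of every chart. -/
def IsFund (β : Bm (Quo act S)) : Prop :=
  IsBM β ∧ ∃ d : ℕ, (∀ j a, j ≠ 2 * (d : ℤ) → IsDeg j a → β a = 0) ∧
    ∀ r, Ori act S (tau r) (r = d) β

/-- Vectors in the subspaces `B x`. -/
def Fib : Type := {z : W × P // z.1 ∈ S ∧ z.2 ∈ B z.1}

/-- The underlying pair. -/
def Fib.pr (z : Fib S B) : W × P := z.1

/-- The relation defining the total space. -/
def TRel (x y : Fib S B) : Prop :=
  let u := x.pr S B
  let v := y.pr S B
  ∃ a, IsUnit a ∧ v.1 = act a u.1 ∧ v.2 - ρ a u.2 ∈ N v.1

/-- The total space of the orbifold vector bundle over `S / Aˣ` with fibres `B x / N x`, where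
`N x ⊆ B x` are subspaces of a vector space `P` on which `a` acts by `ρ a`. -/
def Tot : Type := Quot (TRel act ρ S B N)

instance : TopologicalSpace (Tot act ρ S B N) :=
  @instTopologicalSpaceQuot _ _ instTopologicalSpaceSubtype

/-- `z` is the class of the vector `v` at the point `x`. -/
def At (x : W) (v : P) (z : Tot act ρ S B N) : Prop := ∃ y, y.pr S B = (x, v) ∧ z = Quot.mk _ y

/-- `t` is a Thom cocycle of a bundle with total space `X`, where `T x v z` says that `z` is the class of
the vector `v` in the fibre `B x / N x`: a cocycle with support in the zero section that restricts to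
the orientation cocycle, in degree `2 r`, on every linear parametrisation of a fibre. -/
def IsThom {X Z : Type} [TopologicalSpace X] (B N : Z → Submodule ℂ P) (T : Z → P → X → Prop)
    (t : Co X) : Prop :=
  Bd t ∧ supp (cob t) = ∅ ∧ (∀ z ∈ supp t, ∃ x, T x 0 z) ∧
    ∀ (r : ℕ) (φ : (Fin r → ℂ) → X) (x : Z) (v : Fin r → P),
      (∀ c : Fin r → ℂ, ∑ i, c i • v i ∈ N x → ∀ i, c i = 0) →
      Submodule.span ℂ (range v) ⊔ N x = B x → (∀ c, T x (∑ i, c i • v i) (φ c)) →
      Cohom {c | ∀ i, c i = 0} (pull φ t) (tau r) ∧ ∀ c l, l.length ≠ 2 * r → t (φ c :: l) = 0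

/-- `e` is the pull-back of a Thom cocycle of that bundle along the section given by an equivariant
map `σ` with `σ x ∈ B x`. -/
def IsLoc (σ : W → P) (e : Co (Quo act S)) : Prop :=
  let T := At act ρ S B N
  ∃ s t, IsThom B N T t ∧ e = pull s t ∧
    ∀ z, let x := pick act S z; T x (if σ x ∈ B x then σ x else 0) (s z)

/-- `e` is a cocycle representing the Euler class (for a line bundle, `c₁`) of the bundle with fibres
`span (B' x) / span (N' x)`: the pull-back of a Thom cocycle along the zero section. -/
def IsEuler (B' N' : W → Set P) : Co (Quo act S) → Prop :=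
  IsLoc act ρ S (fun x => Submodule.span ℂ (B' x)) (fun x => Submodule.span ℂ (N' x)) fun _ => 0

/-- `v` is the virtual fundamental class of `sol / Aˣ`, the zero set of the section `σ` over the
smooth space `S / Aˣ` with obstruction spaces `obs x / van x`: on an invariant open neighbourhood `O`
of `sol` in `S`, the obstruction bundle is extended as `pol / N` for a continuous invariant family
`N` of subspaces complementary to `obs`, and `v` is the fundamental class of `O / Aˣ` capped with the
pull-back of the Thom class by the section `σ`. -/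
def IsVir (sol : Set W) (pol : Set P) (van obs : W → Set P) (σ : W → P)
    (v : Bm (Quo act sol)) : Prop :=
  let B := fun _ : W => Submodule.span ℂ pol
  ∃ (O : Set W) (N : W → Submodule ℂ P) (r : ℕ) (β : Bm (Quo act O))
    (e : Co (Quo act O)) (i : Quo act sol → Quo act O),
    (∀ x : sol, ∃ y : O, y.1 = x.1 ∧ i (Quot.mk _ x) = Quot.mk _ y) ∧
    (∃ U, IsOpen U ∧ O = S ∩ U) ∧ (∀ a, IsUnit a → ∀ x ∈ O, act a x ∈ O) ∧
    LocallyCompactSpace O ∧ T2Space (Quo act O) ∧ T2Space (Tot act ρ O B N) ∧
    (∀ x ∈ O, van x ⊆ N x ∧ (N x : Set P) ⊆ pol ∧ Module.finrank ℂ (N x) = r ∧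
      (σ x ∈ N x → x ∈ sol) ∧ ∀ a, IsUnit a → ∀ κ ∈ N x, ρ a κ ∈ N (act a x)) ∧
    IsClosed {z : O × P | z.2 ∈ N z.1} ∧
    (∀ x ∈ sol, (∀ κ ∈ obs x, κ ∈ N x → κ ∈ van x) ∧ ∀ κ ∈ pol, ∃ κ' ∈ obs x, κ - κ' ∈ N x) ∧
    IsFund act O β ∧ IsLoc act ρ O B N σ e ∧ IsBM v ∧
    ∀ a, Bd a → IsCompact (supp a) → (∀ z, ¬supp (cob a) (i z)) →
      v (pull i a) = β (cup a e)

/-- `z` is the integral of `∏ ψ_i^{m_i} ev_i^* c_i`, `l i = (m_i, c_i)`, against the virtual class
of the open and closed part of the compact moduli space `sol / Aˣ` where the domain is connected and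
the class is `β`. The point `x` has the curve `C x / (units of A')`, the marked points `p x i`, and
`V x c y` says that the map has the value `y` at `c`; `ψ_i = - c₁(T_i)` for the tangent line `T_i`
of the curve at the marked point (the tangent space of `C x` modulo the orbit directions). -/
def Intg {A' Y : Type} [NormedRing A'] [NormedAlgebra ℂ A'] [TopologicalSpace Y] {n : ℕ}
    (sol : Set W) (pol : Set P) (van obs : W → Set P) (σ : W → P)
    (act' : A' → E → E) (C : W → Set E) (V : W → E → Y → Prop) (p : W → Fin n → E)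
    (ρ' : Fin n → A → E → E) (dir : E → Set E)
    (β : Bm Y) (l : Fin n → ℕ × Co Y) (z : ℂ) : Prop :=
  let o := pick act sol
  ∃ (v : _) (ev : Fin n → Quo act sol → Y) (e : Fin n → Co (Quo act sol)),
    let a := cup (ind fun y => IsConnected (C (o y)) ∧ ∃ γ f, IsFund act' (C (o y)) γ ∧
        (∀ c, V (o y) (pick act' _ c) (f c)) ∧ ∀ a, Zc a → β a = γ (pull f a))
      (prd (List.ofFn fun i => cup (prd (List.replicate (l i).1 fun u => -e i u))
        (pull (ev i) (l i).2)))
    IsVir act ρ S sol pol van obs σ v ∧ (∀ i y, V (o y) (p (o y) i) (ev i y)) ∧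
    (∀ i, IsEuler act (ρ' i) sol (fun x => {v | ∃ γ : ℂ → E, AnalyticAt ℂ γ 0 ∧
      (∀ᶠ t in 𝓝 0, γ t ∈ C x) ∧ γ 0 = p x i ∧ v = deriv γ 0}) (fun x => dir (p x i)) (e i)) ∧
    CompactSpace (Quo act sol) ∧ Zc a ∧ z = v a

end Vale.Agent.P269.Pub
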